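import Vale.Agent.P125.H266.Defs
import Mathlib.Topology.Metrizable.Uniformity

/-!
# P125 : quasi-norms and their subadditive powers (Aoki, Rolewicz)
-/

namespace P125

namespace H266

variable {X : Type*} [AddCommGroup X] [Module ℝ X] {κ r : ℝ} {q : X → ℝ}

theorem exists_r (hκ : 1 ≤ κ) : ∃ r : ℝ, 0 < r ∧ r ≤ 1 ∧ (3 * κ ^ 2) ^ r ≤ 2 := by
  have h3 : (3 : ℝ) ≤ 3 * κ ^ 2 := by nlinarith
  have hl3 : 0 < Real.log (3 * κ ^ 2) := Real.log_pos (by linarith)
  have hl2 : 0 < Real.log 2 := Real.log_pos (by norm_num)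
  refine ⟨Real.log 2 / Real.log (3 * κ ^ 2), div_pos hl2 hl3, ?_, ?_⟩
  · rw [div_le_one hl3]
    exact Real.log_le_log (by norm_num) (by linarith)
  · rw [Real.rpow_def_of_pos (by linarith), mul_div_cancel₀ _ hl3.ne', Real.exp_log (by norm_num)]

theorem q_zero (hq : IsQuasiNorm κ q) : q 0 = 0 := by
  have h := hq.smul 0 0
  simpa using h

theorem q_neg (hq : IsQuasiNorm κ q) (x : X) : q (-x) = q x := by
  have h := hq.smul (-1) x
  simpa using h

theorem exists_rho (hκ : 1 ≤ κ) (hr : 0 < r) (hr2 : (3 * κ ^ 2) ^ r ≤ 2)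
    (hq : IsQuasiNorm κ q) :
    ∃ ρ : X → ℝ, (∀ x, ρ x ≤ q x ^ r) ∧ (∀ x, q x ^ r ≤ 2 * ρ x) ∧
      (∀ x y, ρ (x + y) ≤ ρ x + ρ y) ∧ (∀ x, ρ (-x) ≤ ρ x) ∧
      (∀ x, ρ ((2 : ℝ) • x) ≤ 2 ^ r * ρ x) := by
  set d : X → X → NNReal := fun x y => ⟨q (x - y) ^ r, Real.rpow_nonneg (hq.nonneg _) _⟩ with hd
  have hdc : ∀ x y, (d x y : ℝ) = q (x - y) ^ r := fun x y => rfl
  have hself : ∀ x, d x x = 0 := by
    intro x
    apply NNReal.coe_injective
    rw [hdc, sub_self, q_zero hq, Real.zero_rpow hr.ne']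
    rfl
  have hcomm : ∀ x y, d x y = d y x := by
    intro x y
    apply NNReal.coe_injective
    rw [hdc, hdc, ← neg_sub, q_neg hq]
  have h4 : ∀ x₁ x₂ x₃ x₄, d x₁ x₄ ≤ 2 * max (d x₁ x₂) (max (d x₂ x₃) (d x₃ x₄)) := by
    intro x₁ x₂ x₃ x₄
    set m : ℝ := max (q (x₁ - x₂)) (max (q (x₂ - x₃)) (q (x₃ - x₄))) with hm
    have hm0 : 0 ≤ m := le_max_of_le_left (hq.nonneg _)
    have e1 : q (x₁ - x₂) ≤ m := le_max_left _ _
    have e2 : q (x₂ - x₃) ≤ m := le_max_of_le_right (le_max_left _ _)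
    have e3 : q (x₃ - x₄) ≤ m := le_max_of_le_right (le_max_right _ _)
    have h1 : q (x₁ - x₄) ≤ 3 * κ ^ 2 * m := by
      have a1 := hq.add_le (x₁ - x₂) (x₂ - x₄)
      have a2 := hq.add_le (x₂ - x₃) (x₃ - x₄)
      rw [sub_add_sub_cancel] at a1 a2
      have hκ0 : 0 ≤ κ := by linarith
      have b2 : q (x₂ - x₄) ≤ κ * (m + m) := a2.trans (by gcongr)
      have b1 : q (x₁ - x₄) ≤ κ * (m + κ * (m + m)) := a1.trans (by gcongr)
      nlinarith [mul_nonneg hκ0 hm0, mul_nonneg (mul_nonneg hκ0 hm0) (by linarith : 0 ≤ κ - 1)]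
    have h2 : q (x₁ - x₄) ^ r ≤ 2 * m ^ r := by
      calc q (x₁ - x₄) ^ r ≤ (3 * κ ^ 2 * m) ^ r := Real.rpow_le_rpow (hq.nonneg _) h1 hr.le
        _ = (3 * κ ^ 2) ^ r * m ^ r := Real.mul_rpow (by positivity) hm0
        _ ≤ 2 * m ^ r := by gcongr
    have h3 : m ^ r ≤ max (q (x₁ - x₂) ^ r) (max (q (x₂ - x₃) ^ r) (q (x₃ - x₄) ^ r)) := by
      rcases le_total (max (q (x₂ - x₃)) (q (x₃ - x₄))) (q (x₁ - x₂)) with h | h
      · rw [hm, max_eq_left h]; exact le_max_left _ _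
      · rw [hm, max_eq_right h]
        refine le_max_of_le_right ?_
        rcases le_total (q (x₃ - x₄)) (q (x₂ - x₃)) with h' | h'
        · rw [max_eq_left h']; exact le_max_left _ _
        · rw [max_eq_right h']; exact le_max_right _ _
    rw [← NNReal.coe_le_coe]
    push_cast
    rw [hdc, hdc, hdc, hdc]
    linarith
  set e : X → X → ℝ := fun x y =>
    @dist X (@PseudoMetricSpace.toDist X (PseudoMetricSpace.ofPreNNDist d hself hcomm)) x y with he
  have he1 : ∀ x y, e x y ≤ q (x - y) ^ r := fun x y =>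
    PseudoMetricSpace.dist_ofPreNNDist_le d hself hcomm x y
  have he2 : ∀ x y, q (x - y) ^ r ≤ 2 * e x y := fun x y =>
    PseudoMetricSpace.le_two_mul_dist_ofPreNNDist d hself hcomm h4 x y
  have he3 : ∀ x y z, e x z ≤ e x y + e y z := fun x y z =>
    (PseudoMetricSpace.ofPreNNDist d hself hcomm).dist_triangle x y z
  have he4 : ∀ x y, e x y = e y x := fun x y =>
    (PseudoMetricSpace.ofPreNNDist d hself hcomm).dist_comm x y
  clear_value e
  -- the averaged function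
  set F : X → X × ℕ → ℝ := fun x a =>
    e ((2 : ℝ) ^ a.2 • x + a.1) a.1 / ((2 : ℝ) ^ r) ^ a.2 with hF
  have h2r : 0 < (2 : ℝ) ^ r := by positivity
  have hFle : ∀ x a, F x a ≤ q x ^ r := by
    intro x a
    rw [hF]
    dsimp only
    rw [div_le_iff₀ (by positivity)]
    refine (he1 _ _).trans ?_
    rw [add_sub_cancel_right, hq.smul, abs_of_nonneg (by positivity),
      Real.mul_rpow (by positivity) (hq.nonneg _), mul_comm, ← Real.rpow_natCast,
      ← Real.rpow_mul (by norm_num), mul_comm (a.2 : ℝ) r, Real.rpow_mul (by norm_num),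
      Real.rpow_natCast]
  have hbdd : ∀ x, BddAbove (Set.range (F x)) := by
    intro x
    refine ⟨q x ^ r, ?_⟩
    rintro _ ⟨a, rfl⟩
    exact hFle x a
  refine ⟨fun x => ⨆ a, F x a, fun x => ciSup_le (hFle x), ?_, ?_, ?_, ?_⟩
  · intro x
    have h1 := he2 x 0
    have h2 : e x 0 = F x (0, 0) := by
      rw [hF]
      simp
    have h3 : F x (0, 0) ≤ ⨆ a, F x a := le_ciSup (hbdd x) _
    rw [sub_zero] at h1
    linarith
  · intro x y
    refine ciSup_le fun a => ?_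
    have h1 : F x (((2 : ℝ) ^ a.2 • y + a.1), a.2) ≤ ⨆ a, F x a := le_ciSup (hbdd x) _
    have h2 : F y a ≤ ⨆ a, F y a := le_ciSup (hbdd y) _
    refine le_trans ?_ (add_le_add h1 h2)
    rw [hF]
    dsimp only
    rw [← add_div, smul_add, add_assoc]
    exact div_le_div_of_nonneg_right (he3 _ _ _) (by positivity)
  · intro x
    refine ciSup_le fun a => ?_
    have h1 : F x ((2 : ℝ) ^ a.2 • (-x) + a.1, a.2) ≤ ⨆ a, F x a := le_ciSup (hbdd x) _
    refine le_trans (le_of_eq ?_) h1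
    rw [hF]
    dsimp only
    rw [he4]
    congr 2
    rw [smul_neg]
    abel
  · intro x
    refine ciSup_le fun a => ?_
    have h1 : F x (a.1, a.2 + 1) ≤ ⨆ a, F x a := le_ciSup (hbdd x) _
    have h2 : F ((2 : ℝ) • x) a = 2 ^ r * F x (a.1, a.2 + 1) := by
      rw [hF]
      dsimp only
      rw [smul_smul, ← pow_succ, pow_succ ((2 : ℝ) ^ r)]
      field_simp
    rw [h2]
    exact mul_le_mul_of_nonneg_left h1 h2r.le

end H266
end P125
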