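import Vale.Agent.P125.H295.Defs

/-!
# P125 : definitions for the uniform theorem on quasi-normed spaces
-/

namespace P125

/-- `q` is a quasi-norm with constant `κ` on the real vector space `X`: as for a norm, but with
the triangle inequality `q (x + y) ≤ κ * (q x + q y)`. -/
structure IsQuasiNorm {X : Type*} [AddCommGroup X] [Module ℝ X] (κ : ℝ) (q : X → ℝ) : Prop where
  nonneg : ∀ x, 0 ≤ q x
  smul : ∀ (c : ℝ) (x : X), q (c • x) = |c| * q x
  add_le : ∀ x y, q (x + y) ≤ κ * (q x + q y)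

/-- The inequality `E q(f(Z_t) - f(Z_0)) ^ p ≤ c * E q(f(Z_1) - f(Z_0)) ^ p` at the single time
`t`, for all symmetric stochastic matrices `P` on finite sets `S` (`Z_0` is uniform on `S`) and
all `f : S → X`.  The common factor `1 / |S|` is cancelled. -/
def OneTime {X : Type*} [AddCommGroup X] (q : X → ℝ) (p : ℝ) (t : ℕ) (c : ℝ) : Prop :=
  ∀ (S : Type) [Fintype S] [DecidableEq S] (P : Matrix S S ℝ), IsSymmChain P → ∀ f : S → X,
    ∑ i, ∑ j, (P ^ t) i j * q (f j - f i) ^ p ≤ c * ∑ i, ∑ j, P i j * q (f j - f i) ^ p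

/-- `N` is uniformly convex with the function `δ`: if `N x, N y ≤ 1` and `N (x - y) ≥ ε`, then
`N ((x + y) / 2) ≤ 1 - δ ε`. -/
def ConvexWith {X : Type*} [AddCommGroup X] [Module ℝ X] (N : Seminorm ℝ X) (δ : ℝ → ℝ) : Prop :=
  ∀ ε : ℝ, 0 < ε → ε ≤ 2 → ∀ x y : X, N x ≤ 1 → N y ≤ 1 → ε ≤ N (x - y) →
    N ((1 / 2 : ℝ) • (x + y)) ≤ 1 - δ ε

/-- `N` is uniformly smooth with the function `τ`: if `N x = N y = 1` and `0 < s ≤ τ ε`, then
`(N (x + s y) + N (x - s y)) / 2 - 1 ≤ ε s`. -/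
def SmoothWith {X : Type*} [AddCommGroup X] [Module ℝ X] (N : Seminorm ℝ X) (τ : ℝ → ℝ) : Prop :=
  ∀ ε : ℝ, 0 < ε → ∀ s : ℝ, 0 < s → s ≤ τ ε → ∀ x y : X, N x = 1 → N y = 1 →
    (N (x + s • y) + N (x - s • y)) / 2 - 1 ≤ ε * s

end P125
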