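import Vale.Agent.P125.H295.Conv
import Vale.Agent.P125.H266.Defs

/-!
# P125 : the uniform converse: uniform convexity gives an improved one-time inequality whose
# time and constant depend on the modulus, the distortion and the exponent only
-/

universe u

namespace P125
namespace H266

open Finset Filter Topology

/-- The uniform convexity inequality in `p`-th powers, normalised and ordered case; the constant
depends on `p` and on the value of the modulus at one point only. -/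
theorem uc_one_unif {p : ℝ} (hp : 1 < p) {d0 : ℝ} (hd0 : 0 < d0) :
    ∃ δ : ℝ, 0 < δ ∧ δ ≤ 1 ∧ ∀ (X : Type u) [AddCommGroup X] [Module ℝ X] (N : Seminorm ℝ X),
      (∀ x y : X, N x ≤ 1 → N y ≤ 1 → (1 / 8 : ℝ) ^ (1 / p) ≤ N (x - y) →
        N ((1 / 2 : ℝ) • (x + y)) ≤ 1 - d0) →
      ∀ x y : X, N x = 1 → N y ≤ 1 →
      N ((1 / 2 : ℝ) • (x + y)) ^ p ≤
        (1 + δ / 4) * ((N x ^ p + N y ^ p) / 2) - δ * N (x - y) ^ p := by
  have hp0 : 0 < p := by linarith
  set ε : ℝ := (1 / 8 : ℝ) ^ (1 / p) with hε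
  have hεp : ε ^ p = 1 / 8 := by
    rw [hε, ← Real.rpow_mul (by norm_num), one_div_mul_cancel hp0.ne', Real.rpow_one]
  set d := min d0 1 with hd
  have hdpos : 0 < d := lt_min hd0 one_pos
  obtain ⟨r, hr0, hr1, hr⟩ := exists_ratio hp hdpos (min_le_right _ _)
  have h2p : (1 : ℝ) ≤ 2 ^ p := Real.one_le_rpow (by norm_num) hp0.le
  set δ := (1 - r) / 2 ^ p with hδ
  have hδ0 : 0 < δ := div_pos (by linarith) (by positivity)
  have hδ1 : δ ≤ 1 := by
    rw [hδ, div_le_one (by positivity)]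
    linarith
  refine ⟨δ, hδ0, hδ1, ?_⟩
  intro X _ _ N hconv x y hx hy
  have hy0 : 0 ≤ N y := apply_nonneg N y
  set T := (N x ^ p + N y ^ p) / 2 with hT
  have hT2 : 1 / 2 ≤ T := by
    rw [hT, hx, Real.one_rpow]
    have : 0 ≤ N y ^ p := Real.rpow_nonneg hy0 p
    linarith
  rcases le_or_gt ε (N (x - y)) with h | h
  · have h1 := hconv x y hx.le hy h
    have h2 : N ((1 / 2 : ℝ) • (x + y)) ≤ min (1 - d) ((1 + N y) / 2) := by
      refine le_min (h1.trans ?_) ?_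
      · have := min_le_left d0 1
        linarith
      · rw [map_smul_eq_mul, Real.norm_of_nonneg (by norm_num)]
        have := map_add_le_add N x y
        rw [hx] at this
        linarith
    have h3 : N ((1 / 2 : ℝ) • (x + y)) ^ p ≤ r * T := by
      refine (Real.rpow_le_rpow (apply_nonneg _ _) h2 hp0.le).trans ?_
      have := hr (N y) ⟨hy0, hy⟩
      rw [hT, hx, Real.one_rpow]
      exact this
    have h4 := sub_le N hp.le x y
    have h5 : δ * N (x - y) ^ p ≤ (1 - r) * T := by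
      calc δ * N (x - y) ^ p ≤ δ * (2 ^ p * T) := mul_le_mul_of_nonneg_left h4 hδ0.le
        _ = (1 - r) * T := by rw [hδ]; field_simp
    nlinarith
  · have h1 : N (x - y) ^ p ≤ 1 / 8 := by
      rw [← hεp]
      exact Real.rpow_le_rpow (apply_nonneg _ _) h.le hp0.le
    have h2 := half_le N hp.le x y
    nlinarith

/-- The uniform convexity inequality in `p`-th powers. -/
theorem uc_ineq_unif {p : ℝ} (hp : 1 < p) {d0 : ℝ} (hd0 : 0 < d0) :
    ∃ δ : ℝ, 0 < δ ∧ δ ≤ 1 ∧ ∀ (X : Type u) [AddCommGroup X] [Module ℝ X] (N : Seminorm ℝ X),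
      (∀ x y : X, N x ≤ 1 → N y ≤ 1 → (1 / 8 : ℝ) ^ (1 / p) ≤ N (x - y) →
        N ((1 / 2 : ℝ) • (x + y)) ≤ 1 - d0) →
      ∀ x y : X, N ((1 / 2 : ℝ) • (x + y)) ^ p ≤
        (1 + δ / 4) * ((N x ^ p + N y ^ p) / 2) - δ * N (x - y) ^ p := by
  have hp0 : 0 < p := by linarith
  obtain ⟨δ, hδ0, hδ1, h'⟩ := uc_one_unif.{u} hp hd0
  refine ⟨δ, hδ0, hδ1, ?_⟩
  intro X _ _ N hN
  have h := h' X N hN
  -- ordered case
  have key : ∀ x y : X, N y ≤ N x → N ((1 / 2 : ℝ) • (x + y)) ^ p ≤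
        (1 + δ / 4) * ((N x ^ p + N y ^ p) / 2) - δ * N (x - y) ^ p := by
    intro x y hxy
    rcases eq_or_lt_of_le (apply_nonneg N x) with h0 | h0
    · have hy : N y = 0 := le_antisymm (hxy.trans h0.symm.le) (apply_nonneg N y)
      have h1 : N (x - y) = 0 := by
        refine le_antisymm ?_ (apply_nonneg _ _)
        have := map_sub_le_add N x y
        rw [← h0, hy] at this
        linarith
      have h2 := half_le N hp.le x y
      rw [← h0, hy, h1] at *
      rw [Real.zero_rpow hp0.ne'] at *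
      linarith
    · set m := N x with hm
      have e1 : N ((m⁻¹ : ℝ) • x) = 1 := by
        rw [map_smul_eq_mul, Real.norm_of_nonneg (inv_nonneg.2 h0.le), ← hm,
          inv_mul_cancel₀ h0.ne']
      have e2 : N ((m⁻¹ : ℝ) • y) = m⁻¹ * N y := by
        rw [map_smul_eq_mul, Real.norm_of_nonneg (inv_nonneg.2 h0.le)]
      have e3 : N ((m⁻¹ : ℝ) • y) ≤ 1 := by
        rw [e2, inv_mul_le_iff₀ h0, mul_one]
        exact hxy
      have h1 := h _ _ e1 e3
      have e4 : N ((1 / 2 : ℝ) • ((m⁻¹ : ℝ) • x + (m⁻¹ : ℝ) • y)) =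
          m⁻¹ * N ((1 / 2 : ℝ) • (x + y)) := by
        rw [← smul_add, smul_comm, map_smul_eq_mul, Real.norm_of_nonneg (inv_nonneg.2 h0.le)]
      have e5 : N ((m⁻¹ : ℝ) • x - (m⁻¹ : ℝ) • y) = m⁻¹ * N (x - y) := by
        rw [← smul_sub, map_smul_eq_mul, Real.norm_of_nonneg (inv_nonneg.2 h0.le)]
      have e6 : (1 : ℝ) = m⁻¹ * m := (inv_mul_cancel₀ h0.ne').symm
      rw [e1, e2, e4, e5] at h1
      have e7 : (1 : ℝ) ^ p = (m⁻¹) ^ p * m ^ p := by
        rw [← Real.mul_rpow (inv_nonneg.2 h0.le) h0.le, ← e6]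
      rw [e7, Real.mul_rpow (inv_nonneg.2 h0.le) (apply_nonneg _ _),
        Real.mul_rpow (inv_nonneg.2 h0.le) (apply_nonneg _ _),
        Real.mul_rpow (inv_nonneg.2 h0.le) (apply_nonneg _ _)] at h1
      have h2 : (0 : ℝ) < (m⁻¹) ^ p := Real.rpow_pos_of_pos (inv_pos.2 h0) p
      refine le_of_mul_le_mul_left ?_ h2
      calc _ ≤ _ := h1
        _ = _ := by ring
  intro x y
  rcases le_total (N y) (N x) with hxy | hxy
  · exact key x y hxy
  · have := key y x hxy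
    rw [add_comm y x, add_comm (N y ^ p), map_sub_rev] at this
    exact this

/-- **The uniform converse.** -/
theorem oneTime_uniform {p : ℝ} (hp : 1 < p) (D : ℝ) (δ : ℝ → ℝ) (hδ : ∀ ε, 0 < ε → 0 < δ ε) :
    ∃ (t : ℕ) (c : ℝ), 2 ≤ t ∧ c < (t : ℝ) ^ p ∧
      ∀ (X : Type u) [AddCommGroup X] [Module ℝ X] (q : X → ℝ) (N : Seminorm ℝ X),
        (∀ x, N x ≤ q x ∧ q x ≤ D * N x) → ConvexWith N δ → OneTime q p t c := by
  have hp0 : 0 < p := by linarith
  have hε0 : (0 : ℝ) < (1 / 8 : ℝ) ^ (1 / p) := Real.rpow_pos_of_pos (by norm_num) _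
  have hε1 : (1 / 8 : ℝ) ^ (1 / p) ≤ 1 :=
    Real.rpow_le_one (by norm_num) (by norm_num) (by positivity)
  obtain ⟨d, hd0, hd1, h⟩ := uc_ineq_unif.{u} hp (hδ _ hε0)
  set D' := max D 1 with hD'
  have hD'1 : 1 ≤ D' := le_max_right _ _
  have hD'0 : 0 ≤ D' := by linarith
  have hlim : Tendsto (fun m : ℕ => (D' ^ p * 2 ^ p) * (1 - d / 4) ^ m) atTop (𝓝 0) := by
    have := (tendsto_pow_atTop_nhds_zero_of_lt_one (by linarith : (0 : ℝ) ≤ 1 - d / 4)
      (by linarith : 1 - d / 4 < 1)).const_mul (D' ^ p * 2 ^ p)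
    simpa using this
  obtain ⟨m, hm⟩ := (hlim.eventually_lt_const one_pos).exists
  refine ⟨2 ^ (m + 1), D' ^ p * (2 ^ p * ((2 ^ p * (1 - d / 4)) ^ m * 2 ^ p)), ?_, ?_, ?_⟩
  · calc 2 = 2 ^ 1 := rfl
      _ ≤ 2 ^ (m + 1) := Nat.pow_le_pow_right (by norm_num) (by omega)
  · have e : (((2 ^ (m + 1) : ℕ) : ℝ)) ^ p = (2 ^ p) ^ m * 2 ^ p := by
      push_cast
      rw [← pow_succ, ← Real.rpow_natCast, ← Real.rpow_natCast, ← Real.rpow_mul (by norm_num),
        ← Real.rpow_mul (by norm_num), mul_comm]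
    rw [e]
    have h1 : (0 : ℝ) < (2 ^ p) ^ m * 2 ^ p := by positivity
    calc D' ^ p * (2 ^ p * ((2 ^ p * (1 - d / 4)) ^ m * 2 ^ p))
        = ((D' ^ p * 2 ^ p) * (1 - d / 4) ^ m) * ((2 ^ p) ^ m * 2 ^ p) := by
          rw [mul_pow]; ring
      _ < 1 * ((2 ^ p) ^ m * 2 ^ p) := mul_lt_mul_of_pos_right hm h1
      _ = _ := one_mul _
  · intro X _ _ q N hNq hN S _ _ P hP f
    have hN0 : ∀ x, 0 ≤ N x := fun x => apply_nonneg N x
    have hq0 : ∀ x, 0 ≤ q x := fun x => (hN0 x).trans (hNq x).1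
    have h' := h X N (fun x y hx hy hxy => hN _ hε0 (by linarith) x y hx hy hxy)
    have h1 := uc_time N hp hd0 hd1 h' hP f m
    have hPt := hP.pow (2 ^ (m + 1))
    have h2 : ∑ i, ∑ j, (P ^ (2 ^ (m + 1))) i j * q (f j - f i) ^ p ≤
        D' ^ p * ∑ i, ∑ j, (P ^ (2 ^ (m + 1))) i j * N (f j - f i) ^ p := by
      rw [Finset.mul_sum]
      refine Finset.sum_le_sum fun i _ => ?_
      rw [Finset.mul_sum]
      refine Finset.sum_le_sum fun j _ => ?_
      have h3 : q (f j - f i) ^ p ≤ D' ^ p * N (f j - f i) ^ p := by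
        rw [← Real.mul_rpow hD'0 (hN0 _)]
        refine Real.rpow_le_rpow (hq0 _) ((hNq _).2.trans ?_) hp0.le
        exact mul_le_mul_of_nonneg_right (le_max_left _ _) (hN0 _)
      calc _ ≤ (P ^ (2 ^ (m + 1))) i j * (D' ^ p * N (f j - f i) ^ p) :=
            mul_le_mul_of_nonneg_left h3 (hPt.nonneg i j)
        _ = _ := by ring
    have h4 : ∑ i, ∑ j, P i j * N (f j - f i) ^ p ≤ ∑ i, ∑ j, P i j * q (f j - f i) ^ p := by
      refine Finset.sum_le_sum fun i _ => Finset.sum_le_sum fun j _ => ?_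
      exact mul_le_mul_of_nonneg_left (Real.rpow_le_rpow (hN0 _) (hNq _).1 hp0.le)
        (hP.nonneg i j)
    have hr : 0 ≤ (2 : ℝ) ^ p * (1 - d / 4) := mul_nonneg (by positivity) (by linarith)
    have hDp : 0 ≤ D' ^ p := Real.rpow_nonneg hD'0 p
    calc _ ≤ _ := h2
      _ ≤ D' ^ p * (2 ^ p * ((2 ^ p * (1 - d / 4)) ^ m * (2 ^ p *
          ∑ i, ∑ j, P i j * N (f j - f i) ^ p))) := mul_le_mul_of_nonneg_left h1 hDp
      _ ≤ D' ^ p * (2 ^ p * ((2 ^ p * (1 - d / 4)) ^ m * (2 ^ p *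
          ∑ i, ∑ j, P i j * q (f j - f i) ^ p))) := by
          refine mul_le_mul_of_nonneg_left ?_ hDp
          refine mul_le_mul_of_nonneg_left ?_ (by positivity)
          refine mul_le_mul_of_nonneg_left ?_ (pow_nonneg hr m)
          exact mul_le_mul_of_nonneg_left h4 (by positivity)
      _ = _ := by ring

end H266
end P125
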