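import Vale.Agent.P125.H266.Signs

/-!
# P125 : a quasi-norm of Markov type `p > 1` is equivalent to a seminorm
-/

namespace P125
namespace H266

open Finset
open scoped Pointwise

variable {X : Type*} [AddCommGroup X] [Module ℝ X] {κ p r C s : ℝ} {q ρ : X → ℝ}

/-- good signs on at least a quarter of every finite family -/
def SignProp (q : X → ℝ) (r C s : ℝ) : Prop :=
  ∀ (ι : Type) (x : ι → X), (∀ i, q (x i) ≤ 1) → ∀ A : Finset ι, A.Nonempty →
    ∃ (D : Finset ι) (ε : ι → ℝ), D ⊆ A ∧ (∀ i, ε i = 1 ∨ ε i = -1) ∧ A.card ≤ 4 * D.card ∧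
      q (∑ i ∈ D, ε i • x i) ^ r ≤ C * (A.card : ℝ) ^ s

theorem signs_finset (hp : 0 < p) (hq : IsQuasiNorm κ q)
    {ι : Type} (x : ι → X) (hx : ∀ i, q (x i) ≤ 1) (A : Finset ι)
    {T : ℕ} {B : ℝ} (hB : 0 ≤ B) (hn2 : 2 ≤ A.card) (hT : A.card ≤ T)
    (hM : One q p T B) :
    ∃ (D : Finset ι) (ε : ι → ℝ), D ⊆ A ∧ (∀ i, ε i = 1 ∨ ε i = -1) ∧ A.card ≤ 4 * D.card ∧
      q (∑ i ∈ D, ε i • x i) ^ p ≤ 16 * B + 1 := by
  classical
  have hA : A.Nonempty := Finset.card_pos.1 (by omega)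
  have : Nonempty {i // i ∈ A} := ⟨⟨hA.choose, hA.choose_spec⟩⟩
  obtain ⟨D, ε, h1, h2, h3⟩ :=
    signs_univ hp hq (fun i : {i // i ∈ A} => x i) (fun i => hx i) hB
      (by rw [Fintype.card_coe]; exact hn2) (by rw [Fintype.card_coe]; exact hT) hM
  refine ⟨D.map (Function.Embedding.subtype _), fun i => if h : i ∈ A then ε ⟨i, h⟩ else 1,
    ?_, ?_, ?_, ?_⟩
  · intro i hi
    rw [Finset.mem_map] at hi
    obtain ⟨j, _, rfl⟩ := hi
    exact j.2
  · intro i
    by_cases h : i ∈ A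
    · simp only [dif_pos h]; exact h1 _
    · simp only [dif_neg h, true_or]
  · rw [Finset.card_map]
    rwa [Fintype.card_coe] at h2
  · rw [Finset.sum_map]
    refine le_trans (le_of_eq ?_) h3
    congr 2
    refine Finset.sum_congr rfl fun i _ => ?_
    dsimp only [Function.Embedding.subtype_apply]
    rw [dif_pos i.2]

theorem signProp_of_one (hp : 0 < p) (hq : IsQuasiNorm κ q) (hr : 0 < r) {t : ℕ} (ht : 2 ≤ t)
    {c γ : ℝ} (hc : 1 ≤ c) (hγ : 0 < γ) (hcγ : c ≤ (t : ℝ) ^ (γ * p))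
    (hM : ∀ k : ℕ, One q p (t ^ k) (c ^ k)) :
    SignProp q r ((16 * (t : ℝ) ^ (γ * p) + 1) ^ (r / p)) (γ * r) := by
  intro ι x hx A hA
  have ht0 : (0 : ℝ) < t := by positivity
  have ht1 : (1 : ℝ) ≤ t := by exact_mod_cast (by omega : 1 ≤ t)
  have htγ : (0 : ℝ) < (t : ℝ) ^ (γ * p) := Real.rpow_pos_of_pos ht0 _
  have hγp : 0 < γ * p := mul_pos hγ hp
  have hn1 : 1 ≤ A.card := hA.card_pos
  have hn1' : (1 : ℝ) ≤ (A.card : ℝ) := by exact_mod_cast hn1
  rcases Nat.lt_or_ge A.card 2 with h | h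
  · have h1 : A.card = 1 := by omega
    obtain ⟨a, rfl⟩ := Finset.card_eq_one.1 h1
    refine ⟨{a}, fun _ => 1, subset_rfl, fun _ => Or.inl rfl, by simp, ?_⟩
    rw [Finset.sum_singleton, one_smul, Finset.card_singleton, Nat.cast_one, Real.one_rpow,
      mul_one]
    refine (Real.rpow_le_one (hq.nonneg _) (hx a) hr.le).trans ?_
    refine Real.one_le_rpow ?_ (by positivity)
    linarith
  · set k := Nat.log t A.card + 1 with hk
    have h1t : 1 < t := by omega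
    have hT : A.card ≤ t ^ k := (Nat.lt_pow_succ_log_self h1t _).le
    have hT' : t ^ Nat.log t A.card ≤ A.card := Nat.pow_log_le_self t (by omega)
    obtain ⟨D, ε, h1, h2, h3, h4⟩ :=
      signs_finset hp hq x hx A (pow_nonneg (by linarith) k) h hT (hM k)
    refine ⟨D, ε, h1, h2, h3, ?_⟩
    have h5 : c ^ k ≤ (t : ℝ) ^ (γ * p) * (A.card : ℝ) ^ (γ * p) := by
      calc c ^ k ≤ ((t : ℝ) ^ (γ * p)) ^ k := pow_le_pow_left₀ (by linarith) hcγ k
        _ = (t : ℝ) ^ (γ * p) * ((t : ℝ) ^ (γ * p)) ^ Nat.log t A.card := by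
          rw [hk, pow_succ, mul_comm]
        _ = (t : ℝ) ^ (γ * p) * (((t ^ Nat.log t A.card : ℕ) : ℝ)) ^ (γ * p) := by
          congr 1
          push_cast
          rw [← Real.rpow_natCast, ← Real.rpow_mul ht0.le, ← Real.rpow_natCast,
            ← Real.rpow_mul ht0.le, mul_comm]
        _ ≤ _ := by
          refine mul_le_mul_of_nonneg_left ?_ htγ.le
          exact Real.rpow_le_rpow (by positivity) (by exact_mod_cast hT') hγp.le
    have h6 : (1 : ℝ) ≤ (A.card : ℝ) ^ (γ * p) := Real.one_le_rpow hn1' hγp.le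
    have h7 : q (∑ i ∈ D, ε i • x i) ^ p ≤
        (16 * (t : ℝ) ^ (γ * p) + 1) * (A.card : ℝ) ^ (γ * p) := by
      refine h4.trans ?_
      linarith
    have h8 : q (∑ i ∈ D, ε i • x i) ^ r = (q (∑ i ∈ D, ε i • x i) ^ p) ^ (r / p) := by
      rw [← Real.rpow_mul (hq.nonneg _), mul_div_cancel₀ _ hp.ne']
    have h9 : ((A.card : ℝ) ^ (γ * p)) ^ (r / p) = (A.card : ℝ) ^ (γ * r) := by
      rw [← Real.rpow_mul (by linarith)]
      congr 1
      field_simp
    rw [h8, ← h9, ← Real.mul_rpow (by positivity) (by linarith)]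
    exact Real.rpow_le_rpow (Real.rpow_nonneg (hq.nonneg _) _) h7 (by positivity)

/-- the constant of `signs_all` -/
noncomputable def M2 (C s : ℝ) : ℝ := C / (1 - (3 / 4 : ℝ) ^ s)

theorem pow_lt_one' {s : ℝ} (hs : 0 < s) : (3 / 4 : ℝ) ^ s < 1 :=
  Real.rpow_lt_one (by norm_num) (by norm_num) hs

theorem M2_nonneg (hC : 0 ≤ C) (hs : 0 < s) : 0 ≤ M2 C s := by
  unfold M2
  have h1 := pow_lt_one' hs
  exact div_nonneg hC (by linarith)

theorem M2_eq (hs : 0 < s) : C + M2 C s * (3 / 4 : ℝ) ^ s = M2 C s := by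
  unfold M2
  have h1 := pow_lt_one' hs
  have h2 : 1 - (3 / 4 : ℝ) ^ s ≠ 0 := by linarith
  field_simp
  ring

theorem signs_all (hC : 0 ≤ C) (hs : 0 < s) (hr : 0 < r) (hq : IsQuasiNorm κ q)
    (hM : SignProp q r C s) (h1 : ∀ x, ρ x ≤ q x ^ r) (h3 : ∀ x y, ρ (x + y) ≤ ρ x + ρ y)
    {ι : Type} (x : ι → X) (hx : ∀ i, q (x i) ≤ 1) (A : Finset ι) :
    ∃ ε : ι → ℝ, (∀ i, ε i = 1 ∨ ε i = -1) ∧
      ρ (∑ i ∈ A, ε i • x i) ≤ M2 C s * (A.card : ℝ) ^ s := by
  classical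
  have hM0 := M2_nonneg hC hs
  induction A using Finset.strongInduction with
  | H A ih =>
    rcases A.eq_empty_or_nonempty with rfl | hA
    · refine ⟨fun _ => 1, fun _ => Or.inl rfl, ?_⟩
      rw [Finset.sum_empty, Finset.card_empty, Nat.cast_zero, Real.zero_rpow hs.ne', mul_zero]
      refine (h1 0).trans ?_
      rw [q_zero hq, Real.zero_rpow hr.ne']
    · obtain ⟨D, ε, hDA, hε, hcard, hqD⟩ := hM ι x hx A hA
      have hApos : 0 < A.card := hA.card_pos
      have hDpos : 0 < D.card := by omega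
      have hss : A \ D ⊂ A := Finset.sdiff_ssubset hDA (Finset.card_pos.1 hDpos)
      obtain ⟨ε', hε', h5⟩ := ih (A \ D) hss
      refine ⟨fun i => if i ∈ D then ε i else ε' i, fun i => ?_, ?_⟩
      · by_cases h : i ∈ D
        · simp only [if_pos h]; exact hε i
        · simp only [if_neg h]; exact hε' i
      · have e1 : ∑ i ∈ A, (if i ∈ D then ε i else ε' i) • x i =
            ∑ i ∈ A \ D, ε' i • x i + ∑ i ∈ D, ε i • x i := by
          rw [← Finset.sum_sdiff hDA]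
          congr 1
          · refine Finset.sum_congr rfl fun i hi => ?_
            rw [if_neg (Finset.mem_sdiff.1 hi).2]
          · refine Finset.sum_congr rfl fun i hi => ?_
            rw [if_pos hi]
        rw [e1]
        have hA0 : (0 : ℝ) ≤ A.card := by positivity
        have h6 : ρ (∑ i ∈ D, ε i • x i) ≤ C * (A.card : ℝ) ^ s := (h1 _).trans hqD
        have h8 : ((A \ D).card : ℝ) ≤ 3 / 4 * A.card := by
          have h9 := Finset.card_sdiff_add_card_eq_card hDA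
          have h9' : ((A \ D).card : ℝ) + D.card = A.card := by exact_mod_cast h9
          have h10 : (A.card : ℝ) ≤ 4 * D.card := by exact_mod_cast hcard
          linarith
        have h11 : ρ (∑ i ∈ A \ D, ε' i • x i) ≤
            M2 C s * ((3 / 4 : ℝ) ^ s * (A.card : ℝ) ^ s) := by
          refine h5.trans (mul_le_mul_of_nonneg_left ?_ hM0)
          rw [← Real.mul_rpow (by norm_num) hA0]
          exact Real.rpow_le_rpow (by positivity) h8 hs.le
        have h12 := h3 (∑ i ∈ A \ D, ε' i • x i) (∑ i ∈ D, ε i • x i)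
        have h13 := M2_eq (C := C) hs
        calc ρ (∑ i ∈ A \ D, ε' i • x i + ∑ i ∈ D, ε i • x i)
            ≤ M2 C s * ((3 / 4 : ℝ) ^ s * (A.card : ℝ) ^ s) +
              C * (A.card : ℝ) ^ s := by linarith
          _ = (C + M2 C s * (3 / 4 : ℝ) ^ s) *
              (A.card : ℝ) ^ s := by ring
          _ = M2 C s * (A.card : ℝ) ^ s := by rw [h13]

/-- the constant of `halving` -/
noncomputable def M4 (C r s : ℝ) : ℝ :=
  M2 C s * (2 : ℝ) ^ s / ((2 : ℝ) ^ r - (2 : ℝ) ^ s)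

theorem two_lt (hsr : s < r) : (2 : ℝ) ^ s < (2 : ℝ) ^ r :=
  Real.rpow_lt_rpow_of_exponent_lt (by norm_num) hsr

theorem M4_nonneg (hC : 0 ≤ C) (hs : 0 < s) (hsr : s < r) : 0 ≤ M4 C r s := by
  unfold M4
  have h1 := two_lt hsr
  have h2 := M2_nonneg hC hs
  exact div_nonneg (by positivity) (by linarith)

theorem M4_eq (hsr : s < r) :
    M2 C s * (2 : ℝ) ^ s + M4 C r s * (2 : ℝ) ^ s = M4 C r s * (2 : ℝ) ^ r := by
  unfold M4
  have h1 := two_lt hsr
  have h2 : (2 : ℝ) ^ r - (2 : ℝ) ^ s ≠ 0 := by linarith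
  field_simp
  ring

theorem halving (hC : 0 ≤ C) (hs : 0 < s) (hsr : s < r) (hq : IsQuasiNorm κ q)
    (hM : SignProp q r C s) (h1 : ∀ x, ρ x ≤ q x ^ r) (h3 : ∀ x y, ρ (x + y) ≤ ρ x + ρ y)
    (h4 : ∀ x, ρ (-x) ≤ ρ x) (h5 : ∀ x, ρ ((2 : ℝ) • x) ≤ 2 ^ r * ρ x)
    {ι : Type} (x : ι → X) (hx : ∀ i, q (x i) ≤ 1) (k : ℕ) (A : Finset ι)
    (hA : A.card ≤ 2 ^ k) :
    ρ (∑ i ∈ A, x i) ≤ (1 + M4 C r s) * ((2 : ℝ) ^ r) ^ k - M4 C r s * ((2 : ℝ) ^ s) ^ k := by
  classical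
  have hr : 0 < r := hs.trans hsr
  have hM0 := M2_nonneg hC hs
  have hM4 := M4_nonneg hC hs hsr
  induction k generalizing A with
  | zero =>
    rw [pow_zero, pow_zero]
    have h6 : ρ (∑ i ∈ A, x i) ≤ 1 := by
      refine (h1 _).trans ?_
      refine Real.rpow_le_one (hq.nonneg _) ?_ hr.le
      rw [pow_zero] at hA
      rcases Nat.le_one_iff_eq_zero_or_eq_one.1 hA with h | h
      · rw [Finset.card_eq_zero.1 h, Finset.sum_empty, q_zero hq]
        exact zero_le_one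
      · obtain ⟨a, rfl⟩ := Finset.card_eq_one.1 h
        rw [Finset.sum_singleton]
        exact hx a
    linarith
  | succ k ih =>
    obtain ⟨ε, hε, h6⟩ := signs_all hC hs hr hq hM h1 h3 x hx A
    have hcard : (A.filter fun i => ε i = 1).card + (A.filter fun i => ¬ ε i = 1).card = A.card :=
      Finset.card_filter_add_card_filter_not _
    have h7 : ρ (∑ i ∈ A, ε i • x i) ≤ M2 C s * ((2 : ℝ) ^ s) ^ (k + 1) := by
      refine h6.trans (mul_le_mul_of_nonneg_left ?_ hM0)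
      rw [← Real.rpow_natCast, ← Real.rpow_mul (by norm_num), mul_comm s,
        Real.rpow_mul (by norm_num), Real.rpow_natCast]
      exact Real.rpow_le_rpow (by positivity) (by exact_mod_cast hA) hs.le
    -- the common estimate
    have key : ∀ S : Finset ι, S.card ≤ 2 ^ k →
        ρ ((2 : ℝ) • ∑ i ∈ S, x i) + M2 C s * ((2 : ℝ) ^ s) ^ (k + 1) ≤
          (1 + M4 C r s) * ((2 : ℝ) ^ r) ^ (k + 1) -
            M4 C r s * ((2 : ℝ) ^ s) ^ (k + 1) := by
      intro S hS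
      have h8 := ih S hS
      have h9 := h5 (∑ i ∈ S, x i)
      have h2r : 0 < (2 : ℝ) ^ r := by positivity
      have h10 : (2 : ℝ) ^ r * ρ (∑ i ∈ S, x i) ≤ (2 : ℝ) ^ r *
          ((1 + M4 C r s) * ((2 : ℝ) ^ r) ^ k - M4 C r s * ((2 : ℝ) ^ s) ^ k) :=
        mul_le_mul_of_nonneg_left h8 h2r.le
      have h11 := M4_eq (C := C) hsr
      have h12 : (M2 C s * (2 : ℝ) ^ s + M4 C r s * (2 : ℝ) ^ s) *
          ((2 : ℝ) ^ s) ^ k = M4 C r s * (2 : ℝ) ^ r * ((2 : ℝ) ^ s) ^ k := by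
        rw [h11]
      rw [pow_succ, pow_succ]
      nlinarith
    rcases le_or_gt (A.filter fun i => ¬ ε i = 1).card (2 ^ k) with hc | hc
    · have e1 : ∑ i ∈ A, x i =
          (2 : ℝ) • ∑ i ∈ A.filter (fun i => ¬ ε i = 1), x i + ∑ i ∈ A, ε i • x i := by
        rw [Finset.smul_sum, Finset.sum_filter, ← Finset.sum_add_distrib]
        refine Finset.sum_congr rfl fun i _ => ?_
        rcases hε i with h | h
        · rw [h, if_neg (by simp), one_smul, zero_add]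
        · rw [h, if_pos (by norm_num), ← add_smul]
          norm_num
      rw [e1]
      have h13 := key _ hc
      have h14 := h3 ((2 : ℝ) • ∑ i ∈ A.filter (fun i => ¬ ε i = 1), x i) (∑ i ∈ A, ε i • x i)
      linarith
    · have hc' : (A.filter fun i => ε i = 1).card ≤ 2 ^ k := by
        rw [pow_succ] at hA
        omega
      have e1 : ∑ i ∈ A, x i =
          (2 : ℝ) • ∑ i ∈ A.filter (fun i => ε i = 1), x i + -∑ i ∈ A, ε i • x i := by
        rw [Finset.smul_sum, Finset.sum_filter, ← Finset.sum_neg_distrib, ← Finset.sum_add_distrib]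
        refine Finset.sum_congr rfl fun i _ => ?_
        rcases hε i with h | h
        · rw [h, if_pos rfl, ← neg_smul, ← add_smul]
          norm_num
        · rw [h, if_neg (by norm_num), ← neg_smul, neg_neg, one_smul, zero_add]
      rw [e1]
      have h13 := key _ hc'
      have h14 := h3 ((2 : ℝ) • ∑ i ∈ A.filter (fun i => ε i = 1), x i) (-∑ i ∈ A, ε i • x i)
      have h15 := h4 (∑ i ∈ A, ε i • x i)
      linarith

/-- the constant of `sum_bound` -/
noncomputable def C3 (C r s : ℝ) : ℝ := (2 * ((1 + M4 C r s) * (2 : ℝ) ^ r)) ^ (1 / r)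

theorem C3_nonneg (hC : 0 ≤ C) (hs : 0 < s) (hsr : s < r) : 0 ≤ C3 C r s := by
  unfold C3
  have := M4_nonneg hC hs hsr
  positivity

theorem sum_bound (hC : 0 ≤ C) (hs : 0 < s) (hsr : s < r) (hq : IsQuasiNorm κ q)
    (hM : SignProp q r C s) (h1 : ∀ x, ρ x ≤ q x ^ r) (h2 : ∀ x, q x ^ r ≤ 2 * ρ x)
    (h3 : ∀ x y, ρ (x + y) ≤ ρ x + ρ y)
    (h4 : ∀ x, ρ (-x) ≤ ρ x) (h5 : ∀ x, ρ ((2 : ℝ) • x) ≤ 2 ^ r * ρ x)
    {ι : Type} (x : ι → X) (hx : ∀ i, q (x i) ≤ 1) (A : Finset ι) :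
    q (∑ i ∈ A, x i) ≤ C3 C r s * A.card := by
  have hr : 0 < r := hs.trans hsr
  have hM4 := M4_nonneg hC hs hsr
  rcases A.eq_empty_or_nonempty with rfl | hA
  · rw [Finset.sum_empty, q_zero hq, Finset.card_empty, Nat.cast_zero, mul_zero]
  · have hpos : 0 < A.card := hA.card_pos
    set k := Nat.log 2 A.card with hk
    have hk1 : 2 ^ k ≤ A.card := Nat.pow_log_le_self 2 hpos.ne'
    have hk2 : A.card ≤ 2 ^ (k + 1) := (Nat.lt_pow_succ_log_self (by norm_num) _).le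
    have h6 := halving hC hs hsr hq hM h1 h3 h4 h5 x hx (k + 1) A hk2
    have h7 : q (∑ i ∈ A, x i) ^ r ≤
        2 * ((1 + M4 C r s) * (2 : ℝ) ^ r) * (A.card : ℝ) ^ r := by
      have h8 : ((2 : ℝ) ^ r) ^ k ≤ (A.card : ℝ) ^ r := by
        rw [← Real.rpow_natCast, ← Real.rpow_mul (by norm_num), mul_comm r,
          Real.rpow_mul (by norm_num), Real.rpow_natCast]
        exact Real.rpow_le_rpow (by positivity) (by exact_mod_cast hk1) hr.le
      have h9 : 0 ≤ M4 C r s * ((2 : ℝ) ^ s) ^ (k + 1) := by positivity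
      have h10 : (1 + M4 C r s) * ((2 : ℝ) ^ r) ^ (k + 1) ≤
          (1 + M4 C r s) * (2 : ℝ) ^ r * (A.card : ℝ) ^ r := by
        rw [pow_succ, mul_comm (((2 : ℝ) ^ r) ^ k), ← mul_assoc]
        exact mul_le_mul_of_nonneg_left h8 (by positivity)
      have h11 := h2 (∑ i ∈ A, x i)
      linarith
    have h12 : q (∑ i ∈ A, x i) = (q (∑ i ∈ A, x i) ^ r) ^ (1 / r) := by
      rw [← Real.rpow_mul (hq.nonneg _), mul_one_div_cancel hr.ne', Real.rpow_one]
    rw [h12]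
    calc (q (∑ i ∈ A, x i) ^ r) ^ (1 / r)
        ≤ (2 * ((1 + M4 C r s) * (2 : ℝ) ^ r) * (A.card : ℝ) ^ r) ^ (1 / r) :=
          Real.rpow_le_rpow (Real.rpow_nonneg (hq.nonneg _) _) h7 (by positivity)
      _ = C3 C r s * A.card := by
        have a1 : 0 ≤ 2 * ((1 + M4 C r s) * (2 : ℝ) ^ r) := by positivity
        have a3 : (0 : ℝ) ≤ (A.card : ℝ) := Nat.cast_nonneg _
        have a2 : (0 : ℝ) ≤ (A.card : ℝ) ^ r := Real.rpow_nonneg a3 _
        rw [Real.mul_rpow a1 a2, ← Real.rpow_mul a3, mul_one_div_cancel hr.ne', Real.rpow_one, C3]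

theorem convex_bound (hC : 0 ≤ C) (hs : 0 < s) (hsr : s < r) (hq : IsQuasiNorm κ q)
    (hM : SignProp q r C s) (h1 : ∀ x, ρ x ≤ q x ^ r) (h2 : ∀ x, q x ^ r ≤ 2 * ρ x)
    (h3 : ∀ x y, ρ (x + y) ≤ ρ x + ρ y)
    (h4 : ∀ x, ρ (-x) ≤ ρ x) (h5 : ∀ x, ρ ((2 : ℝ) • x) ≤ 2 ^ r * ρ x)
    {ι : Type} (t : Finset ι) (w : ι → ℝ) (z : ι → X) (hw : ∀ i ∈ t, 0 ≤ w i)
    (hw1 : ∑ i ∈ t, w i = 1) (hz : ∀ i ∈ t, q (z i) ≤ 1) :
    q (∑ i ∈ t, w i • z i) ≤ 2 * C3 C r s := by
  classical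
  have hC3 := C3_nonneg hC hs hsr
  have ht : t.Nonempty := by
    rw [Finset.nonempty_iff_ne_empty]
    rintro rfl
    simp at hw1
  set M : ℝ := ((t.card : ℕ) : ℝ) with hMdef
  have hMpos : 0 < M := by
    rw [hMdef]
    exact_mod_cast ht.card_pos
  set m : ι → ℕ := fun i => ⌊M * w i⌋₊ + 1 with hm
  have hm1 : ∀ i, (0 : ℝ) < m i := by
    intro i
    rw [hm]
    positivity
  have hm2 : ∀ i, M * w i ≤ m i := by
    intro i
    rw [hm]
    push_cast
    exact (Nat.lt_floor_add_one _).le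
  have hm3 : ∀ i ∈ t, (m i : ℝ) ≤ M * w i + 1 := by
    intro i hi
    rw [hm]
    push_cast
    have := Nat.floor_le (mul_nonneg hMpos.le (hw i hi))
    linarith
  set y : (Σ i : {i // i ∈ t}, Fin (m i)) → X := fun a => (M * w a.1 / m a.1) • z a.1 with hy
  have hy1 : ∀ a, q (y a) ≤ 1 := by
    intro a
    rw [hy]
    dsimp only
    have h6 : 0 ≤ M * w a.1 / m a.1 :=
      div_nonneg (mul_nonneg hMpos.le (hw _ a.1.2)) (hm1 _).le
    rw [hq.smul, abs_of_nonneg h6]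
    have h7 : M * w a.1 / m a.1 ≤ 1 := by
      rw [div_le_one (hm1 _)]
      exact hm2 _
    calc M * w a.1 / m a.1 * q (z a.1) ≤ 1 * 1 :=
          mul_le_mul h7 (hz _ a.1.2) (hq.nonneg _) zero_le_one
      _ = 1 := one_mul 1
  have h6 := sum_bound hC hs hsr hq hM h1 h2 h3 h4 h5 y hy1 Finset.univ
  have h7 : ∑ a, y a = M • ∑ i ∈ t, w i • z i := by
    rw [hy, Fintype.sum_sigma]
    simp only [Finset.sum_const, Finset.card_univ, Fintype.card_fin]
    rw [← Finset.sum_coe_sort t, Finset.smul_sum]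
    refine Finset.sum_congr rfl fun i _ => ?_
    rw [← Nat.cast_smul_eq_nsmul ℝ, smul_smul, smul_smul]
    congr 1
    have := (hm1 i).ne'
    field_simp
  have h8 : ((Finset.univ : Finset (Σ i : {i // i ∈ t}, Fin (m i))).card : ℝ) ≤ 2 * M := by
    rw [Finset.card_univ, Fintype.card_sigma]
    simp only [Fintype.card_fin]
    push_cast
    rw [Finset.sum_coe_sort t (fun i => (m i : ℝ))]
    calc ∑ i ∈ t, (m i : ℝ) ≤ ∑ i ∈ t, (M * w i + 1) := Finset.sum_le_sum hm3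
      _ = 2 * M := by
        rw [Finset.sum_add_distrib, ← Finset.mul_sum, hw1, Finset.sum_const, nsmul_eq_mul,
          mul_one]
        ring
  rw [h7, hq.smul, abs_of_pos hMpos] at h6
  have h9 : M * q (∑ i ∈ t, w i • z i) ≤ M * (2 * C3 C r s) := by
    refine h6.trans ?_
    calc C3 C r s * ((Finset.univ : Finset (Σ i : {i // i ∈ t}, Fin (m i))).card : ℝ)
        ≤ C3 C r s * (2 * M) := mul_le_mul_of_nonneg_left h8 hC3
      _ = M * (2 * C3 C r s) := by ring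
  exact le_of_mul_le_mul_left h9 hMpos

/-- **Normability.** A quasi-norm with the sign property is equivalent, with a constant which
depends on the constants only, to a seminorm. -/
theorem exists_seminorm {κ r C s : ℝ} (hκ : 1 ≤ κ) (hr2 : (3 * κ ^ 2) ^ r ≤ 2) (hC : 0 ≤ C)
    (hs : 0 < s) (hsr : s < r) :
    ∃ C' : ℝ, 1 ≤ C' ∧ ∀ (X : Type*) [AddCommGroup X] [Module ℝ X] (q : X → ℝ),
      IsQuasiNorm κ q → SignProp q r C s →
        ∃ N : Seminorm ℝ X, ∀ x, N x ≤ q x ∧ q x ≤ C' * N x := by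
  have hr : 0 < r := hs.trans hsr
  have hC3 := C3_nonneg hC hs hsr
  refine ⟨2 * C3 C r s + 1, by linarith, ?_⟩
  intro X _ _ q hq hM
  obtain ⟨ρ, h1, h2, h3, h4, h5⟩ := exists_rho hκ hr hr2 hq
  set B : Set X := convexHull ℝ {x | q x ≤ 1} with hB
  have hBb : ∀ x ∈ B, q x ≤ 2 * C3 C r s + 1 := by
    intro x hx
    rw [hB, _root_.convexHull_eq] at hx
    obtain ⟨ι, t, w, z, hw, hw1, hz, rfl⟩ := hx
    rw [Finset.centerMass_eq_of_sum_1 _ _ hw1]
    have := convex_bound hC hs hsr hq hM h1 h2 h3 h4 h5 t w z hw hw1 hz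
    linarith
  have hconv : Convex ℝ B := convex_convexHull ℝ _
  have hsub : {x | q x ≤ 1} ⊆ B := subset_convexHull ℝ _
  have hbal0 : Balanced ℝ {x | q x ≤ 1} := by
    intro a ha
    rintro _ ⟨x, hx, rfl⟩
    have hx' : q x ≤ 1 := hx
    show q (a • x) ≤ 1
    rw [hq.smul]
    rw [Real.norm_eq_abs] at ha
    calc |a| * q x ≤ 1 * 1 := mul_le_mul ha hx' (hq.nonneg _) zero_le_one
      _ = 1 := one_mul 1
  have hbal : Balanced ℝ B := hbal0.convexHull
  have hmem : ∀ (x : X) (c : ℝ), 0 < c → q x ≤ c → x ∈ c • {x | q x ≤ 1} := by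
    intro x c hc hxc
    rw [Set.mem_smul_set_iff_inv_smul_mem₀ hc.ne']
    show q (c⁻¹ • x) ≤ 1
    rw [hq.smul, abs_of_pos (inv_pos.2 hc), ← div_eq_inv_mul, div_le_one hc]
    exact hxc
  have habs0 : Absorbent ℝ {x | q x ≤ 1} := by
    intro x
    rw [absorbs_iff_norm]
    refine ⟨q x + 1, fun c hc => ?_⟩
    rw [Set.singleton_subset_iff]
    have hc0 : c ≠ 0 := by
      rintro rfl
      rw [norm_zero] at hc
      linarith [hq.nonneg x]
    rw [Set.mem_smul_set_iff_inv_smul_mem₀ hc0]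
    show q (c⁻¹ • x) ≤ 1
    rw [Real.norm_eq_abs] at hc
    rw [hq.smul, abs_inv, ← div_eq_inv_mul, div_le_one (abs_pos.2 hc0)]
    linarith
  have habs : Absorbent ℝ B := habs0.mono hsub
  refine ⟨gaugeSeminorm hbal hconv habs, fun x => ⟨?_, ?_⟩⟩
  · show gauge B x ≤ q x
    refine le_of_forall_pos_le_add fun e he => ?_
    have hpos : 0 < q x + e := by linarith [hq.nonneg x]
    refine gauge_le_of_mem hpos.le ?_
    exact Set.smul_set_mono hsub (hmem x _ hpos (by linarith))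
  · show q x ≤ (2 * C3 C r s + 1) * gauge B x
    have hC' : (0 : ℝ) < 2 * C3 C r s + 1 := by linarith
    refine le_of_forall_pos_le_add fun e he => ?_
    have hlt : gauge B x < gauge B x + e / (2 * C3 C r s + 1) := by
      have : 0 < e / (2 * C3 C r s + 1) := div_pos he hC'
      linarith
    obtain ⟨b, hb0, hb, hxb⟩ := exists_lt_of_gauge_lt habs hlt
    obtain ⟨y, hy, rfl⟩ := hxb
    have h6 := hBb y hy
    show q (b • y) ≤ _
    rw [hq.smul, abs_of_pos hb0]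
    calc b * q y ≤ b * (2 * C3 C r s + 1) := mul_le_mul_of_nonneg_left h6 hb0.le
      _ ≤ (gauge B (b • y) + e / (2 * C3 C r s + 1)) * (2 * C3 C r s + 1) :=
        mul_le_mul_of_nonneg_right hb.le hC'.le
      _ = (2 * C3 C r s + 1) * gauge B (b • y) + e := by
        field_simp

end H266
end P125
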