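import Vale.Agent.P125.H295.Lin
import Vale.Agent.P125.H266.AR

/-!
# P125 : the flip walk on the cube and good signs in a quasi-normed space of Markov type
-/

set_option linter.unusedSectionVars false

namespace P125
namespace H266

open Finset

section Flip

variable {α : Type} [Fintype α] [DecidableEq α]

/-- flip the coordinate `l` -/
def flip (l : α) (u : α → Bool) : α → Bool := Function.update u l (!u l)

/-- the sign of a bit -/
noncomputable def sg (b : Bool) : ℝ := if b = true then 1 else -1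

theorem sg_not (b : Bool) : sg (!b) = - sg b := by
  cases b <;> simp [sg]

theorem sg_cases (b : Bool) : sg b = 1 ∨ sg b = -1 := by
  cases b <;> simp [sg]

theorem flip_flip (l : α) (u : α → Bool) : flip l (flip l u) = u := by
  unfold flip
  simp

theorem flip_symm (u v : α → Bool) :
    (∑ l, if flip l u = v then (1 : ℝ) else 0) = ∑ l, if flip l v = u then (1 : ℝ) else 0 := by
  refine Finset.sum_congr rfl fun l _ => ?_
  have h : flip l u = v ↔ flip l v = u := by
    constructor
    · intro h; rw [← h, flip_flip]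
    · intro h; rw [← h, flip_flip]
  simp only [h]

theorem sg_flip (l : α) (u : α → Bool) (i : α) :
    sg (flip l u i) = sg (u i) - (if l = i then 2 * sg (u i) else 0) := by
  unfold flip
  by_cases h : l = i
  · subst h
    rw [Function.update_self, sg_not, if_pos rfl]
    ring
  · rw [Function.update_of_ne (Ne.symm h), if_neg h, sub_zero]

theorem eigen [Nonempty α] (i : α) (n : ℕ) (u : α → Bool) :
    (mapChain (flip (α := α)) ^ n).mulVec (fun v => sg (v i)) u =
      (1 - 2 / (Fintype.card α : ℝ)) ^ n * sg (u i) := by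
  have hc : (Fintype.card α : ℝ) ≠ 0 := by exact_mod_cast Fintype.card_ne_zero
  induction n generalizing u with
  | zero => simp
  | succ n ih =>
    rw [mapChain_pow_succ_mulVec]
    simp only [ih, sg_flip]
    rw [← Finset.mul_sum, Finset.sum_sub_distrib]
    simp only [Finset.sum_const, Finset.card_univ, nsmul_eq_mul, Finset.sum_ite_eq',
      Finset.mem_univ, if_true]
    rw [pow_succ]
    field_simp

theorem mulVec_one' [Nonempty α] (n : ℕ) (u : α → Bool) :
    (mapChain (flip (α := α)) ^ n).mulVec (fun _ => (1 : ℝ)) u = 1 := by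
  have hc : (Fintype.card α : ℝ) ≠ 0 := by exact_mod_cast Fintype.card_ne_zero
  induction n generalizing u with
  | zero => simp
  | succ n ih =>
    rw [mapChain_pow_succ_mulVec]
    simp only [ih, Finset.sum_const, Finset.card_univ, nsmul_eq_mul, mul_one]
    exact inv_mul_cancel₀ hc

/-- the coordinates where `u` and `v` differ -/
def df (u v : α → Bool) : Finset α := univ.filter fun i => u i ≠ v i

theorem card_df (u v : α → Bool) :
    ((df u v).card : ℝ) = ∑ i, (1 / 2 * 1 - 1 / 2 * (sg (u i) * sg (v i))) := by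
  unfold df
  rw [Finset.card_filter]
  push_cast
  refine Finset.sum_congr rfl fun i _ => ?_
  cases u i <;> cases v i <;> simp [sg] <;> norm_num

theorem mulVec_df [Nonempty α] (n : ℕ) (u : α → Bool) :
    (mapChain (flip (α := α)) ^ n).mulVec (fun v => ((df u v).card : ℝ)) u =
      (Fintype.card α : ℝ) * ((1 - (1 - 2 / (Fintype.card α : ℝ)) ^ n) / 2) := by
  have h1 : (mapChain (flip (α := α)) ^ n).mulVec (fun v => ((df u v).card : ℝ)) u =
      ∑ i, (1 / 2 * (mapChain (flip (α := α)) ^ n).mulVec (fun _ => (1 : ℝ)) u -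
        1 / 2 * (sg (u i) * (mapChain (flip (α := α)) ^ n).mulVec (fun v => sg (v i)) u)) := by
    simp only [Matrix.mulVec, dotProduct, card_df, Finset.mul_sum, ← Finset.sum_sub_distrib]
    rw [Finset.sum_comm]
    refine Finset.sum_congr rfl fun i _ => Finset.sum_congr rfl fun v _ => ?_
    ring
  rw [h1]
  have h2 : ∀ i : α, (1 / 2 * (mapChain (flip (α := α)) ^ n).mulVec (fun _ => (1 : ℝ)) u -
        1 / 2 * (sg (u i) * (mapChain (flip (α := α)) ^ n).mulVec (fun v => sg (v i)) u)) =
      (1 - (1 - 2 / (Fintype.card α : ℝ)) ^ n) / 2 := by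
    intro i
    rw [mulVec_one', eigen]
    have h3 : sg (u i) * sg (u i) = 1 := by
      rcases sg_cases (u i) with h | h <;> rw [h] <;> norm_num
    linear_combination (-(1 / 2) * (1 - 2 / (Fintype.card α : ℝ)) ^ n) * h3
  simp only [h2, Finset.sum_const, Finset.card_univ, nsmul_eq_mul]

theorem pow_le_quarter {n : ℕ} (hn : 1 ≤ n) : (1 - 2 / (n : ℝ)) ^ n ≤ 1 / 4 := by
  rcases Nat.lt_or_ge n 2 with h | h
  · have h1 : n = 1 := by omega
    subst h1
    norm_num
  · have hn' : (2 : ℝ) ≤ n := by exact_mod_cast h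
    have h0 : 0 ≤ 1 - 2 / (n : ℝ) := by
      rw [sub_nonneg, div_le_one (by linarith)]
      exact hn'
    have h1 : 1 - 2 / (n : ℝ) ≤ Real.exp (-(2 / (n : ℝ))) := by
      have := Real.add_one_le_exp (-(2 / (n : ℝ)))
      linarith
    have h2 : (1 - 2 / (n : ℝ)) ^ n ≤ Real.exp (-2) := by
      calc (1 - 2 / (n : ℝ)) ^ n ≤ Real.exp (-(2 / (n : ℝ))) ^ n := by gcongr
        _ = Real.exp (-2) := by
          rw [← Real.exp_nat_mul]
          congr 1
          field_simp
    have h3 : Real.exp (-2) ≤ 1 / 4 := by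
      rw [Real.exp_neg, one_div]
      apply inv_anti₀ (by norm_num)
      have h4 : (2 : ℝ) ≤ Real.exp 1 := by
        have := Real.add_one_le_exp (1 : ℝ)
        linarith
      calc (4 : ℝ) = 2 * 2 := by norm_num
        _ ≤ Real.exp 1 * Real.exp 1 := by gcongr
        _ = Real.exp 2 := by rw [← Real.exp_add]; norm_num
    exact h2.trans h3

end Flip

section SignsSec

variable {X : Type*} [AddCommGroup X] [Module ℝ X] {κ p : ℝ} {q : X → ℝ}

theorem signs_univ (hp : 0 < p) (hq : IsQuasiNorm κ q)
    {α : Type} [Fintype α] [DecidableEq α] [Nonempty α] (x : α → X) (hx : ∀ i, q (x i) ≤ 1)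
    {T : ℕ} {B : ℝ} (hB : 0 ≤ B) (hn2 : 2 ≤ Fintype.card α) (hT : Fintype.card α ≤ T)
    (hM : One q p T B) :
    ∃ (D : Finset α) (ε : α → ℝ), (∀ i, ε i = 1 ∨ ε i = -1) ∧ Fintype.card α ≤ 4 * D.card ∧
      q (∑ i ∈ D, ε i • x i) ^ p ≤ 16 * B + 1 := by
  classical
  by_contra hcon
  push Not at hcon
  set n : ℕ := Fintype.card α with hn
  have hn1 : 1 ≤ n := Fintype.card_pos
  have hn1' : (1 : ℝ) ≤ n := by exact_mod_cast hn1
  set C : ℝ := 16 * B + 1 with hC
  have hC0 : 0 < C := by positivity
  set f : (α → Bool) → X := fun u => ∑ i, sg (u i) • x i with hf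
  -- increments
  have hinc : ∀ u v : α → Bool, f v - f u = (2 : ℝ) • ∑ i ∈ df u v, sg (v i) • x i := by
    intro u v
    rw [hf]
    dsimp only
    rw [← Finset.sum_sub_distrib, Finset.smul_sum, df, Finset.sum_filter]
    refine Finset.sum_congr rfl fun i _ => ?_
    by_cases h : u i = v i
    · simp [h]
    · have h1 : sg (u i) = - sg (v i) := by
        have h2 : u i = !(v i) := by
          revert h
          cases u i <;> cases v i <;> simp
        rw [h2, sg_not]
      rw [if_pos h, h1, smul_smul, ← sub_smul]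
      congr 1
      ring
  have hincq : ∀ u v : α → Bool,
      q (f v - f u) ^ p = 2 ^ p * q (∑ i ∈ df u v, sg (v i) • x i) ^ p := by
    intro u v
    rw [hinc, hq.smul, abs_of_pos two_pos, Real.mul_rpow two_pos.le (hq.nonneg _)]
  -- one step
  have h1 : moment q p (fun _ : α → Bool => (Fintype.card (α → Bool) : ℝ)⁻¹)
      (mapChain (flip (α := α))) f 1 ≤ 2 ^ p := by
    rw [moment_mapChain]
    have hb : ∀ u, (mapChain (flip (α := α)) ^ 1).mulVec (fun w => q (f w - f u) ^ p) u ≤
        2 ^ p := by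
      intro u
      rw [pow_one, mapChain_mulVec]
      have h2 : ∀ l : α, q (f (flip l u) - f u) ^ p ≤ 2 ^ p := by
        intro l
        have h3 : f (flip l u) - f u = (-(2 * sg (u l))) • x l := by
          rw [hf]
          dsimp only
          rw [← Finset.sum_sub_distrib, Finset.sum_eq_single l]
          · rw [sg_flip, if_pos rfl, ← sub_smul]
            congr 1
            ring
          · intro i _ hi
            rw [sg_flip, if_neg (Ne.symm hi), sub_zero, sub_self]
          · intro h; exact absurd (Finset.mem_univ _) h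
        rw [h3, hq.smul]
        have h4 : |(-(2 * sg (u l)))| = 2 := by
          rcases sg_cases (u l) with h | h <;> rw [h] <;> norm_num
        rw [h4]
        exact Real.rpow_le_rpow (mul_nonneg two_pos.le (hq.nonneg _)) (by linarith [hx l]) hp.le
      calc (Fintype.card α : ℝ)⁻¹ * ∑ l, q (f (flip l u) - f u) ^ p
          ≤ (Fintype.card α : ℝ)⁻¹ * ∑ _l : α, (2 : ℝ) ^ p := by
            exact mul_le_mul_of_nonneg_left (Finset.sum_le_sum fun l _ => h2 l) (by positivity)
        _ = 2 ^ p := by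
          rw [Finset.sum_const, Finset.card_univ, nsmul_eq_mul, ← mul_assoc, inv_mul_cancel₀,
            one_mul]
          exact_mod_cast Fintype.card_ne_zero
    calc (Fintype.card (α → Bool) : ℝ)⁻¹ *
          ∑ u, (mapChain (flip (α := α)) ^ 1).mulVec (fun w => q (f w - f u) ^ p) u
        ≤ (Fintype.card (α → Bool) : ℝ)⁻¹ * ∑ _u : α → Bool, (2 : ℝ) ^ p := by
          exact mul_le_mul_of_nonneg_left (Finset.sum_le_sum fun u _ => hb u) (by positivity)
      _ = 2 ^ p := by
        rw [Finset.sum_const, Finset.card_univ, nsmul_eq_mul, ← mul_assoc, inv_mul_cancel₀,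
          one_mul]
        exact_mod_cast Fintype.card_ne_zero
  -- `T` steps
  have hT2 : moment q p (fun _ : α → Bool => (Fintype.card (α → Bool) : ℝ)⁻¹)
      (mapChain (flip (α := α))) f T ≤ B * 2 ^ p :=
    (hM _ _ (mapChain_isSymm _ flip_symm) f).trans (mul_le_mul_of_nonneg_left h1 hB)
  rw [moment_mapChain] at hT2
  -- pointwise bound
  have hpt : ∀ u v : α → Bool, ((df u v).card : ℝ) ≤
      (n : ℝ) / 4 * 1 + (n * (2 ^ p * C)⁻¹) * q (f v - f u) ^ p := by
    intro u v
    have hnn : 0 ≤ (n * (2 ^ p * C)⁻¹) * q (f v - f u) ^ p := by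
      have := hq.nonneg (f v - f u)
      positivity
    by_cases h : n ≤ 4 * (df u v).card
    · have h2 := hcon (df u v) (fun i => sg (v i)) (fun i => sg_cases _) h
      have h3 : ((df u v).card : ℝ) ≤ n := by
        exact_mod_cast (Finset.card_le_univ (df u v)).trans_eq hn.symm
      have h4 : (n * (2 ^ p * C)⁻¹) * q (f v - f u) ^ p =
          n * (q (∑ i ∈ df u v, sg (v i) • x i) ^ p / C) := by
        rw [hincq]
        have : (2 : ℝ) ^ p ≠ 0 := by positivity
        field_simp
      have h5 : (1 : ℝ) ≤ q (∑ i ∈ df u v, sg (v i) • x i) ^ p / C := by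
        rw [le_div_iff₀ hC0]
        linarith
      have h6 : (n : ℝ) * 1 ≤ n * (q (∑ i ∈ df u v, sg (v i) • x i) ^ p / C) :=
        mul_le_mul_of_nonneg_left h5 (by positivity)
      rw [h4]
      have : (0 : ℝ) ≤ (n : ℝ) / 4 * 1 := by positivity
      linarith
    · push Not at h
      have h2 : 4 * ((df u v).card : ℝ) ≤ n := by exact_mod_cast h.le
      linarith
  -- average
  have hav : ∀ u : α → Bool, (n : ℝ) * (3 / 8) ≤ (n : ℝ) / 4 + (n * (2 ^ p * C)⁻¹) *
      (mapChain (flip (α := α)) ^ T).mulVec (fun w => q (f w - f u) ^ p) u := by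
    intro u
    have e1 := mulVec_df T u
    rw [← hn] at e1
    have e2 : (mapChain (flip (α := α)) ^ T).mulVec (fun v => ((df u v).card : ℝ)) u ≤
        (mapChain (flip (α := α)) ^ T).mulVec
          (fun v => (n : ℝ) / 4 * 1 + (n * (2 ^ p * C)⁻¹) * q (f v - f u) ^ p) u := by
      unfold Matrix.mulVec dotProduct
      refine Finset.sum_le_sum fun v _ => ?_
      exact mul_le_mul_of_nonneg_left (hpt u v) (mapChain_pow_nonneg _ _ _ _)
    have e3 : (mapChain (flip (α := α)) ^ T).mulVec
          (fun v => (n : ℝ) / 4 * 1 + (n * (2 ^ p * C)⁻¹) * q (f v - f u) ^ p) u =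
        (n : ℝ) / 4 * (mapChain (flip (α := α)) ^ T).mulVec (fun _ => (1 : ℝ)) u +
          (n * (2 ^ p * C)⁻¹) *
            (mapChain (flip (α := α)) ^ T).mulVec (fun w => q (f w - f u) ^ p) u := by
      simp only [Matrix.mulVec, dotProduct, Finset.mul_sum, ← Finset.sum_add_distrib]
      refine Finset.sum_congr rfl fun v _ => ?_
      ring
    rw [e3, mulVec_one', mul_one, e1] at e2
    have e4 : (1 - 2 / (n : ℝ)) ^ T ≤ 1 / 4 := by
      have hn' : (2 : ℝ) ≤ n := by exact_mod_cast hn2
      have h0 : 0 ≤ 1 - 2 / (n : ℝ) := by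
        rw [sub_nonneg, div_le_one (by linarith)]
        exact hn'
      have h0' : 1 - 2 / (n : ℝ) ≤ 1 := by
        have : 0 ≤ 2 / (n : ℝ) := by positivity
        linarith
      exact (pow_le_pow_of_le_one h0 h0' hT).trans (pow_le_quarter hn1)
    have e5 : (n : ℝ) * (3 / 8) ≤ (n : ℝ) * ((1 - (1 - 2 / (n : ℝ)) ^ T) / 2) := by
      have h8 : (3 / 8 : ℝ) ≤ (1 - (1 - 2 / (n : ℝ)) ^ T) / 2 := by linarith
      exact mul_le_mul_of_nonneg_left h8 (by positivity)
    linarith
  have hU : (Fintype.card (α → Bool) : ℝ) ≠ 0 := by exact_mod_cast Fintype.card_ne_zero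
  have hfin : (n : ℝ) * (3 / 8) ≤ (n : ℝ) / 4 + (n * (2 ^ p * C)⁻¹) * (B * 2 ^ p) := by
    have h5 : (n : ℝ) * (3 / 8) ≤ (n : ℝ) / 4 + (n * (2 ^ p * C)⁻¹) *
        ((Fintype.card (α → Bool) : ℝ)⁻¹ *
          ∑ u, (mapChain (flip (α := α)) ^ T).mulVec (fun w => q (f w - f u) ^ p) u) := by
      have h6 := Finset.sum_le_sum fun (u : α → Bool) (_ : u ∈ (univ : Finset (α → Bool))) => hav u
      rw [Finset.sum_add_distrib, ← Finset.mul_sum (a := (n * (2 ^ p * C)⁻¹))] at h6
      simp only [Finset.sum_const, Finset.card_univ, nsmul_eq_mul] at h6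
      have hUp : (0 : ℝ) < (Fintype.card (α → Bool) : ℝ) := by
        exact_mod_cast Fintype.card_pos
      refine le_of_mul_le_mul_left ?_ hUp
      refine h6.trans (le_of_eq ?_)
      have key : ∀ a b c S : ℝ, a ≠ 0 → a * b + c * S = a * (b + c * (a⁻¹ * S)) := by
        intro a b c S ha
        field_simp
      exact key _ _ _ _ hU
    refine h5.trans ?_
    have h7 : (0 : ℝ) ≤ n * (2 ^ p * C)⁻¹ := by positivity
    have h8 := mul_le_mul_of_nonneg_left hT2 h7
    linarith
  have h2p : (2 : ℝ) ^ p ≠ 0 := by positivity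
  have h8 : (n * (2 ^ p * C)⁻¹) * (B * 2 ^ p) = n * (B / C) := by
    field_simp
  have h9 : B / C ≤ 1 / 16 := by
    rw [div_le_iff₀ hC0, hC]
    linarith
  rw [h8] at hfin
  nlinarith

end SignsSec

end H266
end P125
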