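import Vale.Agent.P125.H266.Norm
import Vale.Agent.P125.H295.Main
import Mathlib.Analysis.Normed.Lp.lpSpace

/-!
# P125 : uniformity by `ℓ_p`-sums, and the theorem for quasi-normed spaces
-/

universe u

namespace P125

namespace H266

open Finset

/-- the conclusion of the uniform theorem -/
def Good {X : Type*} [AddCommGroup X] [Module ℝ X] (D : ℝ) (δ τ : ℝ → ℝ) (q : X → ℝ) : Prop :=
  ∃ N₁ N₂ : Seminorm ℝ X, (∀ x, N₁ x ≤ q x ∧ q x ≤ D * N₁ x) ∧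
    (∀ x, N₂ x ≤ q x ∧ q x ≤ D * N₂ x) ∧ ConvexWith N₁ δ ∧ SmoothWith N₂ τ

theorem ConvexWith.comp {X Y : Type*} [AddCommGroup X] [Module ℝ X] [AddCommGroup Y] [Module ℝ Y]
    {N : Seminorm ℝ Y} {δ : ℝ → ℝ} (h : ConvexWith N δ) (L : X →ₗ[ℝ] Y) :
    ConvexWith (N.comp L) δ := by
  intro ε h0 h2 x y hx hy hxy
  have h3 := h ε h0 h2 (L x) (L y) hx hy
    (by rw [← map_sub]; exact hxy)
  rw [← map_add, ← map_smul] at h3
  exact h3

theorem SmoothWith.comp {X Y : Type*} [AddCommGroup X] [Module ℝ X] [AddCommGroup Y] [Module ℝ Y]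
    {N : Seminorm ℝ Y} {τ : ℝ → ℝ} (h : SmoothWith N τ) (L : X →ₗ[ℝ] Y) :
    SmoothWith (N.comp L) τ := by
  intro ε h0 s hs hsτ x y hx hy
  have h3 := h ε h0 s hs hsτ (L x) (L y) hx hy
  have e1 : L x + s • L y = L (x + s • y) := by rw [map_add, map_smul]
  have e2 : L x - s • L y = L (x - s • y) := by rw [map_sub, map_smul]
  rw [e1, e2] at h3
  exact h3

theorem Good.comp {X Y : Type*} [AddCommGroup X] [Module ℝ X] [AddCommGroup Y] [Module ℝ Y]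
    {D : ℝ} {δ τ : ℝ → ℝ} {q : Y → ℝ} {q' : X → ℝ} (h : Good D δ τ q) (L : X →ₗ[ℝ] Y)
    (hL : ∀ x, q (L x) = q' x) : Good D δ τ q' := by
  obtain ⟨N₁, N₂, h1, h2, h3, h4⟩ := h
  refine ⟨N₁.comp L, N₂.comp L, fun x => ?_, fun x => ?_, ConvexWith.comp h3 L,
    SmoothWith.comp h4 L⟩
  · rw [← hL]; exact h1 (L x)
  · rw [← hL]; exact h2 (L x)

/-- multiplication by a positive number, as a linear map -/
theorem exists_scaled {X : Type*} [AddCommGroup X] [Module ℝ X] (N : Seminorm ℝ X) {c : ℝ}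
    (hc : 0 < c) : ∃ L : X →ₗ[ℝ] X, ∀ x, (N.comp L) x = c * N x := by
  refine ⟨c • LinearMap.id, fun x => ?_⟩
  rw [Seminorm.comp_apply]
  simp only [LinearMap.smul_apply, LinearMap.id_coe, id_eq]
  rw [map_smul_eq_mul, Real.norm_eq_abs, abs_of_pos hc]

theorem exists_good {X : Type*} [NormedAddCommGroup X] [NormedSpace ℝ X] {p c : ℝ} {t : ℕ}
    (hp : 1 ≤ p) (ht : 1 ≤ t) (hc0 : 0 ≤ c) (hct : 2 * (c * 2 ^ p) < (t : ℝ) ^ p)
    (hM : One (fun x : X => ‖x‖) p t c) :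
    ∃ (D : ℝ) (δ τ : ℝ → ℝ), (∀ ε, 0 < ε → 0 < δ ε ∧ 0 < τ ε) ∧
      Good D δ τ (fun x : X => ‖x‖) := by
  obtain ⟨⟨N₁, ⟨a, b, ha, hb, hab⟩, hc⟩, N₂, ⟨a', b', ha', hb', hab'⟩, hs⟩ :=
    superreflexive_of_one hp ht hc0 hM hct
  have hδ : ∀ ε : ℝ, ∃ d : ℝ, (0 < ε → 0 < d) ∧ (0 < ε → ε ≤ 2 → ∀ x y : X, N₁ x ≤ 1 →
      N₁ y ≤ 1 → ε ≤ N₁ (x - y) → N₁ ((1 / 2 : ℝ) • (x + y)) ≤ 1 - d) := by
    intro ε
    by_cases h : 0 < ε ∧ ε ≤ 2
    · obtain ⟨d, hd, hd'⟩ := hc ε h.1 h.2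
      exact ⟨d, fun _ => hd, fun _ _ => hd'⟩
    · exact ⟨1, fun _ => one_pos, fun h1 h2 => absurd ⟨h1, h2⟩ h⟩
  have hτ : ∀ ε : ℝ, ∃ t : ℝ, (0 < ε → 0 < t) ∧ (0 < ε → ∀ s : ℝ, 0 < s → s ≤ t →
      ∀ x y : X, N₂ x = 1 → N₂ y = 1 → (N₂ (x + s • y) + N₂ (x - s • y)) / 2 - 1 ≤ ε * s) := by
    intro ε
    by_cases h : 0 < ε
    · obtain ⟨t, ht, ht'⟩ := hs ε h
      exact ⟨t, fun _ => ht, fun _ => ht'⟩
    · exact ⟨1, fun _ => one_pos, fun h1 => absurd h1 h⟩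
  choose δ hδ1 hδ2 using hδ
  choose τ hτ1 hτ2 using hτ
  obtain ⟨L, hL⟩ := exists_scaled N₁ (inv_pos.2 hb)
  obtain ⟨L', hL'⟩ := exists_scaled N₂ (inv_pos.2 hb')
  refine ⟨max (b / a) (b' / a'), δ, τ, fun ε hε => ⟨hδ1 ε hε, hτ1 ε hε⟩, N₁.comp L, N₂.comp L',
    fun x => ⟨?_, ?_⟩, fun x => ⟨?_, ?_⟩,
    ConvexWith.comp (fun ε h0 h2 => hδ2 ε h0 h2) L,
    SmoothWith.comp (fun ε h0 => hτ2 ε h0) L'⟩
  · rw [hL, inv_mul_le_iff₀ hb]
    exact (hab x).2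
  · rw [hL]
    have h1 : ‖x‖ ≤ b / a * (b⁻¹ * N₁ x) := by
      have h2 := (hab x).1
      have h3 : b / a * (b⁻¹ * N₁ x) = N₁ x / a := by
        field_simp
      rw [h3, le_div_iff₀ ha, mul_comm]
      exact h2
    refine h1.trans (mul_le_mul_of_nonneg_right (le_max_left _ _) ?_)
    have := apply_nonneg N₁ x
    positivity
  · rw [hL', inv_mul_le_iff₀ hb']
    exact (hab' x).2
  · rw [hL']
    have h1 : ‖x‖ ≤ b' / a' * (b'⁻¹ * N₂ x) := by
      have h2 := (hab' x).1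
      have h3 : b' / a' * (b'⁻¹ * N₂ x) = N₂ x / a' := by
        field_simp
      rw [h3, le_div_iff₀ ha', mul_comm]
      exact h2
    refine h1.trans (mul_le_mul_of_nonneg_right (le_max_right _ _) ?_)
    have := apply_nonneg N₂ x
    positivity

theorem one_lp {I : Type*} {E : I → Type*} [∀ i, NormedAddCommGroup (E i)] {p c : ℝ} {t : ℕ}
    (hp : 1 ≤ p) [Fact (1 ≤ ENNReal.ofReal p)]
    (h : ∀ i, One (fun x : E i => ‖x‖) p t c) :
    One (fun x : lp E (ENNReal.ofReal p) => ‖x‖) p t c := by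
  intro S _ _ _ P hP f
  have hp0 : 0 < p := by linarith
  have htr : (ENNReal.ofReal p).toReal = p := ENNReal.toReal_ofReal hp0.le
  have hs : ∀ n : ℕ, HasSum (fun i => moment (fun x : E i => ‖x‖) p
      (fun _ => (Fintype.card S : ℝ)⁻¹) P (fun s => f s i) n)
      (moment (fun x : lp E (ENNReal.ofReal p) => ‖x‖) p
        (fun _ => (Fintype.card S : ℝ)⁻¹) P f n) := by
    intro n
    unfold moment
    refine hasSum_sum fun a _ => hasSum_sum fun b _ => ?_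
    have h1 := lp.hasSum_norm (p := ENNReal.ofReal p) (by rw [htr]; exact hp0) (f b - f a)
    rw [htr] at h1
    exact h1.mul_left _
  exact hasSum_le (fun i => h i S P hP (fun s => f s i)) (hs t) ((hs 1).mul_left _)

theorem good_of_lp {I : Type*} {E : I → Type*} [∀ i, NormedAddCommGroup (E i)]
    [∀ i, NormedSpace ℝ (E i)] {p : ℝ} [hfact : Fact (1 ≤ ENNReal.ofReal p)] {D : ℝ}
    {δ τ : ℝ → ℝ} (h : Good D δ τ (fun x : lp E (ENNReal.ofReal p) => ‖x‖)) (i : I) :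
    Good D δ τ (fun x : E i => ‖x‖) := by
  classical
  refine h.comp (lp.lsingle (𝕜 := ℝ) (ENNReal.ofReal p) i) fun x => ?_
  exact lp.norm_single (lt_of_lt_of_le one_pos hfact.out) i x

theorem uniform_normed {p c : ℝ} {t : ℕ}
    (hp : 1 ≤ p) (ht : 1 ≤ t) (hc0 : 0 ≤ c) (hct : 2 * (c * 2 ^ p) < (t : ℝ) ^ p) :
    ∃ (D : ℝ) (δ τ : ℝ → ℝ), (∀ ε, 0 < ε → 0 < δ ε ∧ 0 < τ ε) ∧
      ∀ (X : Type u) [NormedAddCommGroup X] [NormedSpace ℝ X],
        One (fun x : X => ‖x‖) p t c → Good D δ τ (fun x : X => ‖x‖) := by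
  by_contra hcon
  push Not at hcon
  have hI : ∀ a : {a : ℝ × (ℝ → ℝ) × (ℝ → ℝ) // ∀ ε, 0 < ε → 0 < a.2.1 ε ∧ 0 < a.2.2 ε},
      ∃ (X : Type u) (_ : NormedAddCommGroup X) (_ : NormedSpace ℝ X),
        One (fun x : X => ‖x‖) p t c ∧ ¬ Good a.1.1 a.1.2.1 a.1.2.2 (fun x : X => ‖x‖) :=
    fun a => hcon a.1.1 a.1.2.1 a.1.2.2 a.2
  choose E i1 i2 hE1 hE2 using hI
  have hfact : Fact (1 ≤ ENNReal.ofReal p) := ⟨by
    rw [ENNReal.one_le_ofReal]; exact hp⟩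
  have hM : One (fun x : lp E (ENNReal.ofReal p) => ‖x‖) p t c := one_lp hp hE1
  obtain ⟨D, δ, τ, hpos, hgood⟩ := exists_good hp ht hc0 hct hM
  exact hE2 ⟨(D, δ, τ), hpos⟩ (good_of_lp hgood ⟨(D, δ, τ), hpos⟩)

theorem uniform_seminormed {p c : ℝ} {t : ℕ}
    (hp : 1 ≤ p) (ht : 1 ≤ t) (hc0 : 0 ≤ c) (hct : 2 * (c * 2 ^ p) < (t : ℝ) ^ p) :
    ∃ (D : ℝ) (δ τ : ℝ → ℝ), (∀ ε, 0 < ε → 0 < δ ε ∧ 0 < τ ε) ∧
      ∀ (X : Type u) [SeminormedAddCommGroup X] [NormedSpace ℝ X],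
        One (fun x : X => ‖x‖) p t c → Good D δ τ (fun x : X => ‖x‖) := by
  obtain ⟨D, δ, τ, hpos, h⟩ := uniform_normed.{u} hp ht hc0 hct
  refine ⟨D, δ, τ, hpos, ?_⟩
  intro X _ _ hM
  have hM' : One (fun x : SeparationQuotient X => ‖x‖) p t c := by
    intro S _ _ _ P hP f
    have hf : ∀ s, ∃ x : X, SeparationQuotient.mk x = f s := fun s =>
      SeparationQuotient.surjective_mk (f s)
    choose g hg using hf
    have h1 := hM S P hP g
    have h2 : ∀ n, moment (fun x : SeparationQuotient X => ‖x‖) p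
          (fun _ => (Fintype.card S : ℝ)⁻¹) P f n =
        moment (fun x : X => ‖x‖) p (fun _ => (Fintype.card S : ℝ)⁻¹) P g n := by
      intro n
      unfold moment
      refine Finset.sum_congr rfl fun a _ => Finset.sum_congr rfl fun b _ => ?_
      have e : ‖(f b - f a : SeparationQuotient X)‖ = ‖g b - g a‖ := by
        rw [← hg a, ← hg b, ← SeparationQuotient.mk_sub, SeparationQuotient.norm_mk]
      show (Fintype.card S : ℝ)⁻¹ * (P ^ n) a b * ‖(f b - f a : SeparationQuotient X)‖ ^ p = _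
      rw [e]
    rw [h2, h2]
    exact h1
  refine (h (SeparationQuotient X) hM').comp
    (SeparationQuotient.mkCLM ℝ X).toLinearMap fun x => ?_
  exact SeparationQuotient.norm_mk x

theorem uniform_seminorm {p c : ℝ} {t : ℕ}
    (hp : 1 ≤ p) (ht : 1 ≤ t) (hc0 : 0 ≤ c) (hct : 2 * (c * 2 ^ p) < (t : ℝ) ^ p) :
    ∃ (D : ℝ) (δ τ : ℝ → ℝ), (∀ ε, 0 < ε → 0 < δ ε ∧ 0 < τ ε) ∧
      ∀ (X : Type u) [AddCommGroup X] [Module ℝ X] (N : Seminorm ℝ X),
        One (fun x : X => N x) p t c → Good D δ τ (fun x : X => N x) := by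
  obtain ⟨D, δ, τ, hpos, h⟩ := uniform_seminormed.{u} hp ht hc0 hct
  refine ⟨D, δ, τ, hpos, ?_⟩
  intro X _ _ N hM
  let i1 : SeminormedAddCommGroup X := N.toAddGroupSeminorm.toSeminormedAddCommGroup
  let i2 : NormedSpace ℝ X := { norm_smul_le := fun a x => (map_smul_eq_mul N a x).le }
  exact h X hM

theorem OneTime.one {W : Type*} [AddCommGroup W] {q : W → ℝ} {p c : ℝ} {t : ℕ}
    (h : OneTime q p t c) : One q p t c := by
  intro S _ _ _ P hP f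
  have h1 := h S P hP f
  have h2 : ∀ n : ℕ, moment q p (fun _ => (Fintype.card S : ℝ)⁻¹) P f n =
      (Fintype.card S : ℝ)⁻¹ * ∑ i, ∑ j, (P ^ n) i j * q (f j - f i) ^ p := by
    intro n
    unfold moment
    rw [Finset.mul_sum]
    refine Finset.sum_congr rfl fun i _ => ?_
    rw [Finset.mul_sum]
    refine Finset.sum_congr rfl fun j _ => ?_
    ring
  rw [h2, h2, pow_one]
  calc _ ≤ (Fintype.card S : ℝ)⁻¹ * (c * ∑ i, ∑ j, P i j * q (f j - f i) ^ p) :=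
        mul_le_mul_of_nonneg_left h1 (by positivity)
    _ = _ := by ring

theorem OneTime.mono {W : Type*} [AddCommGroup W] {q : W → ℝ} (hq : ∀ x, 0 ≤ q x) {p c c' : ℝ}
    {t : ℕ} (h : OneTime q p t c) (hc : c ≤ c') : OneTime q p t c' := by
  intro S _ _ P hP f
  refine (h S P hP f).trans (mul_le_mul_of_nonneg_right hc ?_)
  exact Finset.sum_nonneg fun i _ => Finset.sum_nonneg fun j _ =>
    mul_nonneg (hP.nonneg i j) (Real.rpow_nonneg (hq _) p)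

theorem OneTime.iter {W : Type*} [AddCommGroup W] {q : W → ℝ} {p c : ℝ} {t : ℕ} (hc : 0 ≤ c)
    (h : OneTime q p t c) (k : ℕ) : OneTime q p (t ^ k) (c ^ k) := by
  induction k with
  | zero =>
    intro S _ _ P hP f
    simp
  | succ k ih =>
    intro S _ _ P hP f
    have h1 := h S (P ^ (t ^ k)) (hP.pow _) f
    have h2 := ih S P hP f
    rw [← pow_mul, ← pow_succ] at h1
    calc _ ≤ _ := h1
      _ ≤ c * (c ^ k * ∑ i, ∑ j, P i j * q (f j - f i) ^ p) := mul_le_mul_of_nonneg_left h2 hc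
      _ = _ := by ring

theorem OneTime.of_equiv {W : Type*} [AddCommGroup W] {q N : W → ℝ} {p c C : ℝ} {t : ℕ}
    (hp : 0 < p) (hc : 0 ≤ c) (hC : 0 ≤ C) (hN : ∀ x, 0 ≤ N x) (h1 : ∀ x, N x ≤ q x)
    (h2 : ∀ x, q x ≤ C * N x) (h : OneTime q p t c) : OneTime N p t (c * C ^ p) := by
  intro S _ _ P hP f
  have hq : ∀ x, 0 ≤ q x := fun x => (hN x).trans (h1 x)
  have hPt := hP.pow t
  have e1 : ∑ i, ∑ j, (P ^ t) i j * N (f j - f i) ^ p ≤
      ∑ i, ∑ j, (P ^ t) i j * q (f j - f i) ^ p := by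
    refine Finset.sum_le_sum fun i _ => Finset.sum_le_sum fun j _ => ?_
    exact mul_le_mul_of_nonneg_left (Real.rpow_le_rpow (hN _) (h1 _) hp.le) (hPt.nonneg i j)
  have e2 : ∑ i, ∑ j, P i j * q (f j - f i) ^ p ≤
      C ^ p * ∑ i, ∑ j, P i j * N (f j - f i) ^ p := by
    rw [Finset.mul_sum]
    refine Finset.sum_le_sum fun i _ => ?_
    rw [Finset.mul_sum]
    refine Finset.sum_le_sum fun j _ => ?_
    have e3 : q (f j - f i) ^ p ≤ C ^ p * N (f j - f i) ^ p := by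
      rw [← Real.mul_rpow hC (hN _)]
      exact Real.rpow_le_rpow (hq _) (h2 _) hp.le
    calc P i j * q (f j - f i) ^ p ≤ P i j * (C ^ p * N (f j - f i) ^ p) :=
          mul_le_mul_of_nonneg_left e3 (hP.nonneg i j)
      _ = _ := by ring
  calc _ ≤ _ := e1
    _ ≤ _ := h S P hP f
    _ ≤ c * (C ^ p * ∑ i, ∑ j, P i j * N (f j - f i) ^ p) := mul_le_mul_of_nonneg_left e2 hc
    _ = _ := by ring

/-- the exponent -/
theorem exists_gamma {p c : ℝ} {t : ℕ} (hp : 1 ≤ p) (ht : 2 ≤ t) (hc : 1 ≤ c)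
    (hct : c < (t : ℝ) ^ p) : ∃ γ : ℝ, 0 < γ ∧ γ < 1 ∧ c ≤ (t : ℝ) ^ (γ * p) := by
  have ht1 : (1 : ℝ) < t := by exact_mod_cast (by omega : 1 < t)
  have ht0 : (0 : ℝ) < t := by linarith
  have hl : 0 < Real.log t := Real.log_pos ht1
  have hp0 : 0 < p := by linarith
  have hc0 : 0 < c := by linarith
  have hlc : 0 ≤ Real.log c := Real.log_nonneg hc
  have h1 : Real.log c < p * Real.log t := by
    have := Real.log_lt_log hc0 hct
    rwa [Real.log_rpow ht0] at this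
  set g := Real.log c / (p * Real.log t) with hg
  have hpl : 0 < p * Real.log t := mul_pos hp0 hl
  have hg0 : 0 ≤ g := div_nonneg hlc hpl.le
  have hg1 : g < 1 := (div_lt_one hpl).2 h1
  refine ⟨(1 + g) / 2, by linarith, by linarith, ?_⟩
  have h2 : c = (t : ℝ) ^ (g * p) := by
    rw [Real.rpow_def_of_pos ht0, hg]
    have : Real.log t * (Real.log c / (p * Real.log t) * p) = Real.log c := by
      field_simp
    rw [this, Real.exp_log hc0]
  rw [h2]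
  refine Real.rpow_le_rpow_of_exponent_le ht1.le ?_
  exact mul_le_mul_of_nonneg_right (by linarith) hp0.le

/-- **The uniform theorem for quasi-normed spaces, one inequality at one time.** -/
theorem uniform_quasi {p κ c : ℝ} {t : ℕ} (hp : 1 ≤ p) (hκ : 1 ≤ κ) (ht : 2 ≤ t)
    (hct : c < (t : ℝ) ^ p) :
    ∃ (D : ℝ) (δ τ : ℝ → ℝ), (∀ ε, 0 < ε → 0 < δ ε ∧ 0 < τ ε) ∧
      ∀ (X : Type u) [AddCommGroup X] [Module ℝ X] (q : X → ℝ), IsQuasiNorm κ q →
        OneTime q p t c → Good D δ τ q := by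
  have hp0 : 0 < p := by linarith
  have ht1 : (1 : ℝ) < t := by exact_mod_cast (by omega : 1 < t)
  have ht0 : (0 : ℝ) < t := by linarith
  set c' := max c 1 with hc'
  have hc'1 : 1 ≤ c' := le_max_right _ _
  have hc't : c' < (t : ℝ) ^ p := max_lt hct (Real.one_lt_rpow ht1 hp0)
  obtain ⟨γ, hγ0, hγ1, hγ⟩ := exists_gamma hp ht hc'1 hc't
  obtain ⟨r, hr, _, hr2⟩ := exists_r hκ
  have htγ : (0 : ℝ) < (t : ℝ) ^ (γ * p) := Real.rpow_pos_of_pos ht0 _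
  obtain ⟨C, hC, hN⟩ := exists_seminorm.{u} (C := (16 * (t : ℝ) ^ (γ * p) + 1) ^ (r / p))
    (s := γ * r) hκ hr2 (by positivity) (mul_pos hγ0 hr) (by nlinarith)
  have hC0 : 0 ≤ C := by linarith
  -- the number of iterations
  have htp : (0 : ℝ) < (t : ℝ) ^ p := Real.rpow_pos_of_pos ht0 p
  set ρ := c' / (t : ℝ) ^ p with hρ
  have hρ0 : 0 ≤ ρ := div_nonneg (by linarith) htp.le
  have hρ1 : ρ < 1 := (div_lt_one htp).2 hc't
  have hlim : Filter.Tendsto (fun k : ℕ => (2 * (C ^ p * 2 ^ p)) * ρ ^ k) Filter.atTop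
      (nhds 0) := by
    have := (tendsto_pow_atTop_nhds_zero_of_lt_one hρ0 hρ1).const_mul (2 * (C ^ p * 2 ^ p))
    simpa using this
  obtain ⟨k, hk⟩ := (hlim.eventually_lt_const one_pos).exists
  have hct' : 2 * ((c' ^ k * C ^ p) * 2 ^ p) < ((t ^ k : ℕ) : ℝ) ^ p := by
    have e : ((t ^ k : ℕ) : ℝ) ^ p = ((t : ℝ) ^ p) ^ k := by
      push_cast
      rw [← Real.rpow_natCast, ← Real.rpow_natCast, ← Real.rpow_mul ht0.le,
        ← Real.rpow_mul ht0.le, mul_comm]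
    rw [e]
    have h9 : c' ^ k = ρ ^ k * ((t : ℝ) ^ p) ^ k := by
      rw [← mul_pow, hρ, div_mul_cancel₀ _ htp.ne']
    have h10 : (0 : ℝ) < ((t : ℝ) ^ p) ^ k := pow_pos htp k
    calc 2 * ((c' ^ k * C ^ p) * 2 ^ p)
        = ((2 * (C ^ p * 2 ^ p)) * ρ ^ k) * ((t : ℝ) ^ p) ^ k := by rw [h9]; ring
      _ < 1 * ((t : ℝ) ^ p) ^ k := mul_lt_mul_of_pos_right hk h10
      _ = _ := one_mul _
  have hc'k : 0 ≤ c' ^ k := pow_nonneg (by linarith) k
  obtain ⟨D, δ, τ, hpos, h⟩ := uniform_seminorm.{u} hp (Nat.one_le_pow k t (by omega))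
    (mul_nonneg hc'k (Real.rpow_nonneg hC0 p)) hct'
  refine ⟨C * D, δ, τ, hpos, ?_⟩
  intro X _ _ q hq hM
  have hM' : OneTime q p t c' := OneTime.mono hq.nonneg hM (le_max_left _ _)
  have hiter : ∀ k : ℕ, OneTime q p (t ^ k) (c' ^ k) := fun k =>
    OneTime.iter (by linarith) hM' k
  obtain ⟨N, hNq⟩ := hN X q hq
    (signProp_of_one hp0 hq hr ht hc'1 hγ0 hγ fun k => OneTime.one (hiter k))
  have hMN : OneTime (fun x : X => N x) p (t ^ k) (c' ^ k * C ^ p) :=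
    OneTime.of_equiv hp0 hc'k hC0 (fun x => apply_nonneg N x) (fun x => (hNq x).1)
      (fun x => (hNq x).2) (hiter k)
  obtain ⟨N₁, N₂, h1, h2, h3, h4⟩ := h X N (OneTime.one hMN)
  refine ⟨N₁, N₂, fun x => ⟨(h1 x).1.trans (hNq x).1, ?_⟩,
    fun x => ⟨(h2 x).1.trans (hNq x).1, ?_⟩, h3, h4⟩
  · calc q x ≤ C * N x := (hNq x).2
      _ ≤ C * (D * N₁ x) := mul_le_mul_of_nonneg_left (h1 x).2 hC0
      _ = C * D * N₁ x := by ring
  · calc q x ≤ C * N x := (hNq x).2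
      _ ≤ C * (D * N₂ x) := mul_le_mul_of_nonneg_left (h2 x).2 hC0
      _ = C * D * N₂ x := by ring

/-- Markov type `p` with constant `K` gives the one-time inequality at every time `t`. -/
theorem oneTime_of_markov {W : Type*} [AddCommGroup W] {q : W → ℝ} {p K : ℝ}
    (h : MarkovIneq q p K) {t : ℕ} (ht : 1 ≤ t) : OneTime q p t (K ^ p * t) := by
  intro S _ _ P hP f
  rcases isEmpty_or_nonempty S with hS | hS
  · simp
  · have hS0 : (0 : ℝ) < Fintype.card S := by exact_mod_cast Fintype.card_pos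
    have hch : IsStatRevChain (fun _ : S => (Fintype.card S : ℝ)⁻¹) P := by
      refine ⟨fun i => by positivity, ?_, hP.nonneg, hP.row_sum, fun i j => by rw [hP.symm i j]⟩
      rw [Finset.sum_const, Finset.card_univ, nsmul_eq_mul, mul_inv_cancel₀ hS0.ne']
    have h1 := h S _ P hch f t ht
    have h2 : ∀ n : ℕ, moment q p (fun _ => (Fintype.card S : ℝ)⁻¹) P f n =
        (Fintype.card S : ℝ)⁻¹ * ∑ i, ∑ j, (P ^ n) i j * q (f j - f i) ^ p := by
      intro n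
      unfold moment
      rw [Finset.mul_sum]
      refine Finset.sum_congr rfl fun i _ => ?_
      rw [Finset.mul_sum]
      refine Finset.sum_congr rfl fun j _ => ?_
      ring
    rw [h2, h2, pow_one, mul_left_comm] at h1
    exact le_of_mul_le_mul_left h1 (inv_pos.2 hS0)

/-- **The uniform theorem for quasi-normed spaces of nontrivial Markov type.** -/
theorem uniform_markov {p K κ : ℝ} (hp : 1 < p) (hκ : 1 ≤ κ) :
    ∃ (D : ℝ) (δ τ : ℝ → ℝ), (∀ ε, 0 < ε → 0 < δ ε ∧ 0 < τ ε) ∧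
      ∀ (X : Type u) [AddCommGroup X] [Module ℝ X] (q : X → ℝ), IsQuasiNorm κ q →
        MarkovIneq q p K → Good D δ τ q := by
  have hlim : Filter.Tendsto (fun n : ℕ => (n : ℝ) ^ (p - 1)) Filter.atTop Filter.atTop :=
    (tendsto_rpow_atTop (by linarith)).comp tendsto_natCast_atTop_atTop
  obtain ⟨t, h1, h2⟩ := ((hlim.eventually_gt_atTop (K ^ p)).and
    (Filter.eventually_ge_atTop 2)).exists
  have ht0 : (0 : ℝ) < t := by exact_mod_cast (by omega : 0 < t)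
  have hct : K ^ p * t < (t : ℝ) ^ p := by
    calc K ^ p * t < (t : ℝ) ^ (p - 1) * t := mul_lt_mul_of_pos_right h1 ht0
      _ = (t : ℝ) ^ p := by
        rw [Real.rpow_sub_one ht0.ne', div_mul_cancel₀ _ ht0.ne']
  obtain ⟨D, δ, τ, hpos, h⟩ := uniform_quasi.{u} hp.le hκ h2 hct
  exact ⟨D, δ, τ, hpos, fun X _ _ q hq hM => h X q hq (oneTime_of_markov hM (by omega))⟩

end H266
end P125
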